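import Vale.Agent.P321.R3.H101.Chain7
import Vale.Agent.P321.R3.H630.Chain5

/-! # No phases, one window, costs (pass 2) -/

namespace Vale.Agent.P321.R3.H613

open Complex Finset Vale.Agent.P321.UB Vale.Agent.P321.R3.H101

/-- the relation between two cheap cells -/
theorem rel_pair {z z' w w' : ℂ} {ez ew Δ : ℝ} (hz0 : 0 < ez) (hw0 : 0 < ew)
    (hz : ez ≤ ‖z - z'‖) (hw : ew ≤ ‖w - w'‖)
    (hqz : |‖z‖ ^ 2 - ‖z'‖ ^ 2| ≤ Δ) (hqw : |‖w‖ ^ 2 - ‖w'‖ ^ 2| ≤ Δ)
    (hz16 : 16 * Δ ≤ ez ^ 2) (hw16 : 16 * Δ ≤ ew ^ 2)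
    (hp : ‖w * (starRingEnd ℂ) z - w' * (starRingEnd ℂ) z'‖ ≤ Δ) :
    ‖uu w w' - uu z z'‖ ≤ 8 * Δ / (mx z z' * mx w w') := by
  have lz := low hz0 hz hqz hz16
  have lw := low hw0 hw hqw hw16
  have mz := mx_ge hz
  have mw := mx_ge hw
  have mz0 : 0 < mx z z' := by linarith
  have mw0 : 0 < mx w w' := by linarith
  have nz : z ≠ 0 := norm_pos_iff.1 (by linarith [lz.1])
  have nz' : z' ≠ 0 := norm_pos_iff.1 (by linarith [lz.2])
  have nw : w ≠ 0 := norm_pos_iff.1 (by linarith [lw.1])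
  have nw' : w' ≠ 0 := norm_pos_iff.1 (by linarith [lw.2])
  have ncz : (starRingEnd ℂ) z ≠ 0 := by
    rw [← norm_pos_iff, RCLike.norm_conj, norm_pos_iff]; exact nz
  have ncz' : (starRingEnd ℂ) z' ≠ 0 := by
    rw [← norm_pos_iff, RCLike.norm_conj, norm_pos_iff]; exact nz'
  have hA := mul_ne_zero nw ncz
  have hB := mul_ne_zero nw' ncz'
  have hph := norm_phase_sub_le hA hB
  have hnA : mx z z' * mx w w' / 4 ≤ ‖w * (starRingEnd ℂ) z‖ := by
    rw [norm_mul, RCLike.norm_conj]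
    calc mx z z' * mx w w' / 4 = (mx w w' / 2) * (mx z z' / 2) := by ring
      _ ≤ ‖w‖ * ‖z‖ := mul_le_mul lw.1 lz.1 (by positivity) (norm_nonneg _)
  have hApos := norm_pos_iff.2 hA
  have hM0 : 0 < mx z z' * mx w w' := by positivity
  have h1 : ‖ph (w * (starRingEnd ℂ) z) - ph (w' * (starRingEnd ℂ) z')‖ ≤
      8 * Δ / (mx z z' * mx w w') := by
    refine hph.trans ?_
    rw [div_le_div_iff₀ hApos hM0]
    have hΔ : 0 ≤ Δ := (norm_nonneg _).trans hp
    calc 2 * ‖w * (starRingEnd ℂ) z - w' * (starRingEnd ℂ) z'‖ * (mx z z' * mx w w')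
        ≤ 2 * Δ * (mx z z' * mx w w') := by gcongr
      _ ≤ 8 * Δ * ‖w * (starRingEnd ℂ) z‖ := by nlinarith
  have e : uu w w' - uu z z' = -(ph z' * (starRingEnd ℂ) (ph w) *
      (ph (w * (starRingEnd ℂ) z) - ph (w' * (starRingEnd ℂ) z'))) := by
    rw [ph_mul, ph_mul, ph_conj, ph_conj]
    unfold uu
    have j1 := unit_conj (ph_norm nz')
    have j2 := unit_conj (ph_norm nw)
    linear_combination (-(ph w' * (starRingEnd ℂ) (ph w))) * j1 +
      (ph z' * (starRingEnd ℂ) (ph z)) * j2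
  rw [e, norm_neg, norm_mul, norm_mul, RCLike.norm_conj, ph_norm nz', ph_norm nw, one_mul, one_mul]
  exact h1

/-- **No phases**, one window. -/
theorem no_phase5 {L : ℕ} {W W' : ℕ → ℂ} {φ : ℕ → ℝ} {T Δ : ℝ} (hT : 0 < T) (hΔ : 0 ≤ Δ)
    (hφ : ∀ j, 0 ≤ φ j) (h0 : ∀ j < L, Real.exp (-(φ j)) ≤ ‖W j - W' j‖)
    (hsq : ∀ j < L, |‖W j‖ ^ 2 - ‖W' j‖ ^ 2| ≤ Δ)
    (hpair : ∀ j k, 1 ≤ k → k ≤ 100 → j + k < L →
      ‖W (j + k) * (starRingEnd ℂ) (W j) - W' (j + k) * (starRingEnd ℂ) (W' j)‖ ≤ Δ)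
    (htr : ∀ j k, j + k < L → ‖W j * W k * (starRingEnd ℂ) (W (j + k)) -
      W' j * W' k * (starRingEnd ℂ) (W' (j + k))‖ ≤ Δ)
    (hsmall : 10 ^ 6 * L * Δ < Real.exp (-T))
    (hsum : 8 * (∑ j ∈ Finset.range L, φ j) + T * (((L / 100 : ℕ) : ℝ) + 3) ≤ T * L) : False := by
  classical
  have hS0 : 0 ≤ ∑ j ∈ Finset.range L, φ j := Finset.sum_nonneg fun j _ => hφ j
  have hL3 : (3 : ℝ) ≤ L := by
    have h1 : T * 3 ≤ T * L := by
      have h2 : (0 : ℝ) ≤ ((L / 100 : ℕ) : ℝ) := Nat.cast_nonneg _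
      have h3 : T * 3 ≤ T * (((L / 100 : ℕ) : ℝ) + 3) := by
        apply mul_le_mul_of_nonneg_left _ hT.le
        linarith
      linarith
    exact le_of_mul_le_mul_left h1 hT
  have hsm : 10 ^ 6 * Δ < Real.exp (-T) := by
    have h2 : 10 ^ 6 * Δ ≤ 10 ^ 6 * L * Δ := by nlinarith
    linarith
  have hepos : ∀ j, 0 < Real.exp (-(φ j)) := fun j => Real.exp_pos _
  have hle1 : ∀ j, Real.exp (-(φ j)) ≤ 1 := fun j =>
    Real.exp_le_one_iff.2 (by linarith [hφ j])
  have hgood2 : ∀ j, 2 * φ j ≤ T → Real.exp (-T) ≤ Real.exp (-(φ j)) ^ 2 := by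
    intro j hj
    rw [← Real.exp_nat_mul]
    apply Real.exp_le_exp.2
    push_cast
    linarith
  have hmpos : ∀ j < L, 0 < mx (W j) (W' j) := by
    intro j hj
    have h1 := mx_ge (h0 j hj)
    have h2 := hepos j
    linarith
  have hlow : ∀ j < L, 2 * φ j ≤ T → mx (W j) (W' j) / 2 ≤ ‖W j‖ ∧ mx (W j) (W' j) / 2 ≤ ‖W' j‖ :=
    fun j hj hg => low (hepos j) (h0 j hj) (hsq j hj) (by linarith [hgood2 j hg])
  have hne : ∀ j < L, 2 * φ j ≤ T → W j ≠ 0 ∧ W' j ≠ 0 := by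
    intro j hj hg
    have h1 := hlow j hj hg
    have h2 := hmpos j hj
    exact ⟨norm_pos_iff.1 (by linarith [h1.1]), norm_pos_iff.1 (by linarith [h1.2])⟩
  -- the reference cell
  set G : Finset ℕ := (range L).filter fun a => 2 * φ a ≤ T with hG
  have hGne : G.Nonempty := by
    by_contra hcon
    rw [Finset.not_nonempty_iff_eq_empty] at hcon
    have hall : ∀ j ∈ range L, T / 2 ≤ φ j := by
      intro j hj
      by_contra h
      push Not at h
      have : j ∈ G := Finset.mem_filter.2 ⟨hj, by linarith⟩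
      rw [hcon] at this
      exact absurd this (Finset.notMem_empty _)
    have h1 := Finset.sum_le_sum hall
    rw [Finset.sum_const, Finset.card_range, nsmul_eq_mul] at h1
    have h2 : (0 : ℝ) ≤ ((L / 100 : ℕ) : ℝ) := Nat.cast_nonneg _
    have h3 : 0 ≤ T * (((L / 100 : ℕ) : ℝ) + 3) := by positivity
    have h4 : 0 < T * L := by positivity
    nlinarith
  obtain ⟨j0, hj0, hmax⟩ := exists_max_image G
    (fun a : ℕ => Real.exp (-(φ a)) / mx (W a) (W' a)) hGne
  obtain ⟨hj0r, hj0T⟩ := Finset.mem_filter.1 hj0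
  have hj0L : j0 < L := mem_range.1 hj0r
  set ρ : ℝ := Real.exp (-(φ j0)) / mx (W j0) (W' j0) with hρdef
  have hm0 := hmpos j0 hj0L
  have hρ : 0 < ρ := div_pos (hepos _) hm0
  have hρm : ρ * mx (W j0) (W' j0) = Real.exp (-(φ j0)) := by
    rw [hρdef]; field_simp
  have hGk : ∀ a < L, 2 * φ a ≤ T → Real.exp (-(φ a)) / ρ ≤ mx (W a) (W' a) := by
    intro a ha haT
    have h1 := hmax a (Finset.mem_filter.2 ⟨mem_range.2 ha, haT⟩)
    rw [div_le_iff₀ (hmpos a ha)] at h1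
    rw [div_le_iff₀ hρ, mul_comm]
    exact h1
  set e : ℝ := 64 * Δ * Real.exp T * ρ with hedef
  have he0 : 0 ≤ e := by
    have := (Real.exp_pos T).le
    positivity
  have hee : Real.exp T * Real.exp (-T) = 1 := by rw [← Real.exp_add]; simp
  set u : ℕ → ℂ := fun j => uu (W j) (W' j) with hudef
  have hu : ∀ a < L, 2 * φ a ≤ T → ‖u a‖ = 1 := fun a ha hg =>
    uu_norm (hne a ha hg).1 (hne a ha hg).2
  have hadj : ∀ a k, 1 ≤ k → k ≤ 100 → a + k < L → 2 * φ a ≤ T → 2 * φ (a + k) ≤ T →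
      ‖u (a + k) - u a‖ ≤ e := by
    intro a k hk1 hk2 hak ha hak2
    have h1 := rel_pair (hepos a) (hepos (a + k)) (h0 a (by omega)) (h0 (a + k) hak)
      (hsq a (by omega)) (hsq (a + k) hak) (by linarith [hgood2 a ha])
      (by linarith [hgood2 (a + k) hak2]) (hpair a k hk1 hk2 hak)
    refine h1.trans ?_
    have m1 := hGk a (by omega) ha
    have m2 := mx_ge (h0 (a + k) hak)
    have hm1 := hmpos a (by omega)
    have hm2 := hmpos (a + k) hak
    have hprod : Real.exp (-T) / (2 * ρ) ≤ mx (W a) (W' a) * mx (W (a + k)) (W' (a + k)) := by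
      have h3 : Real.exp (-T) ≤ Real.exp (-(φ a)) * Real.exp (-(φ (a + k))) := by
        rw [← Real.exp_add]
        apply Real.exp_le_exp.2
        linarith
      have hpa := hepos a
      have hpb := hepos (a + k)
      calc Real.exp (-T) / (2 * ρ) ≤ Real.exp (-(φ a)) * Real.exp (-(φ (a + k))) / (2 * ρ) := by
            gcongr
        _ = (Real.exp (-(φ a)) / ρ) * (Real.exp (-(φ (a + k))) / 2) := by field_simp
        _ ≤ _ := by gcongr
    have hpos : 0 < Real.exp (-T) / (2 * ρ) := by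
      have := Real.exp_pos (-T)
      positivity
    calc 8 * Δ / (mx (W a) (W' a) * mx (W (a + k)) (W' (a + k)))
        ≤ 8 * Δ / (Real.exp (-T) / (2 * ρ)) := by gcongr
      _ = 16 * Δ * Real.exp T * ρ := by
          rw [Real.exp_neg]
          have := (Real.exp_pos T).ne'
          field_simp
          ring
      _ ≤ e := by
          rw [hedef]
          have h5 : 0 ≤ Δ * Real.exp T * ρ := by
            have := (Real.exp_pos T).le
            positivity
          nlinarith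
  have hmul : ∀ a b, a + b < L → 2 * φ a ≤ T → 2 * φ (a + b) ≤ T →
      φ a + φ b + φ (a + b) ≤ T → ‖u b‖ = 1 ∧ ‖u a * u b - u (a + b)‖ ≤ e := by
    intro a b hab ha hab2 hsumT
    have hconj0 : Real.exp (-(φ (a + b))) ≤
        ‖(starRingEnd ℂ) (W (a + b)) - (starRingEnd ℂ) (W' (a + b))‖ := by
      rw [← map_sub, RCLike.norm_conj]; exact h0 _ hab
    have hconjq : |‖(starRingEnd ℂ) (W (a + b))‖ ^ 2 - ‖(starRingEnd ℂ) (W' (a + b))‖ ^ 2| ≤ Δ := by
      rw [RCLike.norm_conj, RCLike.norm_conj]; exact hsq _ hab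
    have h3 : Real.exp (-T) ≤ Real.exp (-(φ a)) * Real.exp (-(φ b)) * Real.exp (-(φ (a + b))) := by
      rw [← Real.exp_add, ← Real.exp_add]
      apply Real.exp_le_exp.2
      linarith
    obtain ⟨-, hb, -, hr⟩ := rel_phase hΔ (hepos a) (hepos b) (hepos (a + b)) (hle1 a) (hle1 b)
      (hle1 (a + b)) (h0 a (by omega)) (h0 b (by omega)) hconj0 (hsq a (by omega))
      (hsq b (by omega)) hconjq (by linarith) (htr a b hab)
    have hmc : mx ((starRingEnd ℂ) (W (a + b))) ((starRingEnd ℂ) (W' (a + b))) =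
        mx (W (a + b)) (W' (a + b)) := by
      unfold mx; rw [RCLike.norm_conj, RCLike.norm_conj]
    rw [uu_conj, hmc] at hr
    refine ⟨uu_norm hb.1 hb.2, ?_⟩
    have huab := hu (a + b) hab hab2
    have e1 : u a * u b - u (a + b) =
        (u a * u b * (starRingEnd ℂ) (u (a + b)) - 1) * u (a + b) := by
      have j := unit_conj huab
      linear_combination (-(u a * u b)) * j
    rw [e1, norm_mul, huab, mul_one]
    refine hr.trans ?_
    have hm1 := hmpos a (by omega)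
    have hm2 := hmpos b (by omega)
    have hm3 := hmpos (a + b) hab
    have hprod := prod_lower (hepos a) (hepos b) (hepos (a + b)) hρ (mx_ge (h0 a (by omega)))
      (mx_ge (h0 b (by omega))) (mx_ge (h0 (a + b) hab)) (Or.inl (hGk a (by omega) ha))
    have hlow2 : Real.exp (-T) / (4 * ρ) ≤
        mx (W a) (W' a) * mx (W b) (W' b) * mx (W (a + b)) (W' (a + b)) := by
      refine le_trans ?_ hprod
      gcongr
    have hpos : 0 < Real.exp (-T) / (4 * ρ) := by
      have := Real.exp_pos (-T)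
      positivity
    calc 16 * Δ / (mx (W a) (W' a) * mx (W b) (W' b) * mx (W (a + b)) (W' (a + b)))
        ≤ 16 * Δ / (Real.exp (-T) / (4 * ρ)) := by gcongr
      _ = e := by
          rw [hedef, Real.exp_neg]
          have := (Real.exp_pos T).ne'
          field_simp
          ring
  have hchain := R3.H630.chain5 (C := 100) (by norm_num) hT hφ (by exact_mod_cast hsum) he0 hu hadj
    hmul j0 hj0L hj0T
  -- smallness
  have hsmall2 : 4 * L * e ≤ ρ / 4 := by
    have h3 : 1024 * (L * Δ) ≤ Real.exp (-T) := by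
      have h4 : 0 ≤ L * Δ := by positivity
      nlinarith
    have h4 : (1024 * (L * Δ)) * Real.exp T ≤ 1 := by
      rw [← hee, mul_comm (Real.exp T)]
      exact mul_le_mul_of_nonneg_right h3 (Real.exp_pos T).le
    have h5 : 4 * L * e = ((1024 * (L * Δ)) * Real.exp T) * (ρ / 4) := by rw [hedef]; ring
    rw [h5]
    exact mul_le_of_le_one_left (by positivity) h4
  have hmod : |‖W j0‖ - ‖W' j0‖| ≤ ρ * mx (W j0) (W' j0) / 2 := by
    have h1 := norm_diff_mul_mx (hsq j0 hj0L)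
    have h2 := mx_ge (h0 j0 hj0L)
    have h3 := hgood2 j0 hj0T
    rw [hρm]
    have hpe := hepos j0
    have h4 : Δ ≤ Real.exp (-(φ j0)) / 2 * mx (W j0) (W' j0) := by
      have h5 : Real.exp (-(φ j0)) / 2 * (Real.exp (-(φ j0)) / 2) ≤
          Real.exp (-(φ j0)) / 2 * mx (W j0) (W' j0) := by gcongr
      nlinarith
    exact le_of_mul_le_mul_right (h1.trans h4) hm0
  have hfin := close_of_phase hρ (hne j0 hj0L hj0T).1 (hne j0 hj0L hj0T).2 hmod
    (hchain.trans hsmall2)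
  rw [hρm] at hfin
  exact absurd (h0 j0 hj0L) (not_le.2 hfin)

end Vale.Agent.P321.R3.H613
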