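import Mathlib

/-! # Lower bounds for the symmetrised Poisson kernel on three ranges (wave 3, exponent 6) -/

namespace Vale.Agent.P321.R3.H613

theorem interp7 {X M Y W k : ℝ} (hX : 0 ≤ X) (hXM : X ≤ M) (hM : 0 < M) (hk : 0 ≤ k)
    (h0 : 0 ≤ 4 * W * (1 + Y) - k * (1 + Y) ^ 2)
    (h1 : 0 ≤ 4 * W * (1 + M + Y) - k * ((1 + M + Y) ^ 2 - 4 * M * Y)) :
    k * ((1 + X + Y) ^ 2 - 4 * X * Y) ≤ 4 * W * (1 + X + Y) := by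
  have key : 0 ≤ M * (4 * W * (1 + X + Y) - k * ((1 + X + Y) ^ 2 - 4 * X * Y)) := by
    have e : M * (4 * W * (1 + X + Y) - k * ((1 + X + Y) ^ 2 - 4 * X * Y)) =
        (M - X) * (4 * W * (1 + Y) - k * (1 + Y) ^ 2) +
        X * (4 * W * (1 + M + Y) - k * ((1 + M + Y) ^ 2 - 4 * M * Y)) +
        k * (X * M * (M - X)) := by ring
    rw [e]
    have a1 := mul_nonneg (sub_nonneg.2 hXM) h0
    have a2 := mul_nonneg hX h1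
    have a3 := mul_nonneg hk (mul_nonneg (mul_nonneg hX hM.le) (sub_nonneg.2 hXM))
    linarith
  have := nonneg_of_mul_nonneg_right key hM
  linarith

theorem end0 {ρ g : ℝ} (h1 : 8 / 11 ≤ ρ) (h2 : ρ ≤ 4.51) (hg1 : g ≤ 1)
    (hg2 : g ≤ 2 - 9989 / 23000 * ρ) : 3.98 * g * (1 + ρ ^ 2) ≤ 11 * ρ := by
  rcases le_or_gt ρ 2.3026 with h | h
  · have e : 3.98 * g * (1 + ρ ^ 2) ≤ 3.98 * 1 * (1 + ρ ^ 2) := by gcongr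
    refine e.trans ?_
    have A : 0 ≤ ρ - 8 / 11 := by linarith
    have B : 0 ≤ 2.3026 - ρ := by linarith
    nlinarith [mul_nonneg A B, pow_nonneg A 2, pow_nonneg B 2]
  · have e : 3.98 * g * (1 + ρ ^ 2) ≤ 3.98 * (2 - 9989 / 23000 * ρ) * (1 + ρ ^ 2) := by gcongr
    refine e.trans ?_
    have A : 0 ≤ ρ - 2.3026 := by linarith
    have B : 0 ≤ 4.51 - ρ := by linarith
    nlinarith [mul_nonneg A (pow_nonneg B 2), mul_nonneg (pow_nonneg A 2) B, pow_nonneg A 3,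
      pow_nonneg B 3]

theorem end1 {ρ g : ℝ} (h1 : 8 / 11 ≤ ρ) (h2 : ρ ≤ 4.51) (hg1 : g ≤ 1)
    (hg2 : g ≤ 2 - 9989 / 23000 * ρ) :
    3.98 * g * ((1 + (0.5001 * (2.75 * ρ)) ^ 2 + ρ ^ 2) ^ 2 -
      4 * (0.5001 * (2.75 * ρ)) ^ 2 * ρ ^ 2) ≤
      4 * (2.75 * ρ) * (1 + (0.5001 * (2.75 * ρ)) ^ 2 + ρ ^ 2) := by
  have hS : 0 ≤ (1 + (0.5001 * (2.75 * ρ)) ^ 2 + ρ ^ 2) ^ 2 -
      4 * (0.5001 * (2.75 * ρ)) ^ 2 * ρ ^ 2 := by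
    have : (1 + (0.5001 * (2.75 * ρ)) ^ 2 + ρ ^ 2) ^ 2 - 4 * (0.5001 * (2.75 * ρ)) ^ 2 * ρ ^ 2 =
      1 + 2 * ((0.5001 * (2.75 * ρ)) ^ 2 + ρ ^ 2) +
        ((0.5001 * (2.75 * ρ)) ^ 2 - ρ ^ 2) ^ 2 := by ring
    rw [this]; positivity
  rcases le_or_gt ρ 2.3026 with h | h
  · have e := mul_le_mul_of_nonneg_right (mul_le_mul_of_nonneg_left hg1
      (by norm_num : (0 : ℝ) ≤ 3.98)) hS
    refine e.trans ?_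
    have A : 0 ≤ ρ - 8 / 11 := by linarith
    have B : 0 ≤ 2.3026 - ρ := by linarith
    nlinarith [pow_nonneg B 4, mul_nonneg A (pow_nonneg B 3),
      mul_nonneg (pow_nonneg A 2) (pow_nonneg B 2), mul_nonneg (pow_nonneg A 3) B,
      pow_nonneg A 4]
  · have e := mul_le_mul_of_nonneg_right (mul_le_mul_of_nonneg_left hg2
      (by norm_num : (0 : ℝ) ≤ 3.98)) hS
    refine e.trans ?_
    have A : 0 ≤ ρ - 2.3026 := by linarith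
    have B : 0 ≤ 4.51 - ρ := by linarith
    nlinarith [pow_nonneg B 5, mul_nonneg A (pow_nonneg B 4),
      mul_nonneg (pow_nonneg A 2) (pow_nonneg B 3), mul_nonneg (pow_nonneg A 3) (pow_nonneg B 2),
      mul_nonneg (pow_nonneg A 4) B, pow_nonneg A 5]

theorem end2 {ρ g : ℝ} (h1 : 8 / 11 ≤ ρ) (h2 : ρ ≤ 4.51) (hg1 : g ≤ 1)
    (hg2 : g ≤ 2 - 9989 / 23000 * ρ) :
    1.99 * g * ((1 + (0.7504 * (2.75 * ρ)) ^ 2 + ρ ^ 2) ^ 2 -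
      4 * (0.7504 * (2.75 * ρ)) ^ 2 * ρ ^ 2) ≤
      4 * (2.75 * ρ) * (1 + (0.7504 * (2.75 * ρ)) ^ 2 + ρ ^ 2) := by
  have hS : 0 ≤ (1 + (0.7504 * (2.75 * ρ)) ^ 2 + ρ ^ 2) ^ 2 -
      4 * (0.7504 * (2.75 * ρ)) ^ 2 * ρ ^ 2 := by
    have : (1 + (0.7504 * (2.75 * ρ)) ^ 2 + ρ ^ 2) ^ 2 - 4 * (0.7504 * (2.75 * ρ)) ^ 2 * ρ ^ 2 =
      1 + 2 * ((0.7504 * (2.75 * ρ)) ^ 2 + ρ ^ 2) +
        ((0.7504 * (2.75 * ρ)) ^ 2 - ρ ^ 2) ^ 2 := by ring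
    rw [this]; positivity
  rcases le_or_gt ρ 2.3026 with h | h
  · have e := mul_le_mul_of_nonneg_right (mul_le_mul_of_nonneg_left hg1
      (by norm_num : (0 : ℝ) ≤ 1.99)) hS
    refine e.trans ?_
    have A : 0 ≤ ρ - 8 / 11 := by linarith
    have B : 0 ≤ 2.3026 - ρ := by linarith
    nlinarith [pow_nonneg B 4, mul_nonneg A (pow_nonneg B 3),
      mul_nonneg (pow_nonneg A 2) (pow_nonneg B 2), mul_nonneg (pow_nonneg A 3) B,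
      pow_nonneg A 4]
  · have e := mul_le_mul_of_nonneg_right (mul_le_mul_of_nonneg_left hg2
      (by norm_num : (0 : ℝ) ≤ 1.99)) hS
    refine e.trans ?_
    have A : 0 ≤ ρ - 2.3026 := by linarith
    have B : 0 ≤ 4.51 - ρ := by linarith
    nlinarith [pow_nonneg B 5, mul_nonneg A (pow_nonneg B 4),
      mul_nonneg (pow_nonneg A 2) (pow_nonneg B 3), mul_nonneg (pow_nonneg A 3) (pow_nonneg B 2),
      mul_nonneg (pow_nonneg A 4) B, pow_nonneg A 5]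

theorem end3 {ρ g : ℝ} (h1 : 8 / 11 ≤ ρ) (h2 : ρ ≤ 4.51) (hg1 : g ≤ 1)
    (hg2 : g ≤ 2 - 9989 / 23000 * ρ) :
    0.6634 * g * ((1 + (1.0001 * (2.75 * ρ)) ^ 2 + ρ ^ 2) ^ 2 -
      4 * (1.0001 * (2.75 * ρ)) ^ 2 * ρ ^ 2) ≤
      4 * (2.75 * ρ) * (1 + (1.0001 * (2.75 * ρ)) ^ 2 + ρ ^ 2) := by
  have hS : 0 ≤ (1 + (1.0001 * (2.75 * ρ)) ^ 2 + ρ ^ 2) ^ 2 -
      4 * (1.0001 * (2.75 * ρ)) ^ 2 * ρ ^ 2 := by
    have : (1 + (1.0001 * (2.75 * ρ)) ^ 2 + ρ ^ 2) ^ 2 - 4 * (1.0001 * (2.75 * ρ)) ^ 2 * ρ ^ 2 =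
      1 + 2 * ((1.0001 * (2.75 * ρ)) ^ 2 + ρ ^ 2) +
        ((1.0001 * (2.75 * ρ)) ^ 2 - ρ ^ 2) ^ 2 := by ring
    rw [this]; positivity
  rcases le_or_gt ρ 2.3026 with h | h
  · have e := mul_le_mul_of_nonneg_right (mul_le_mul_of_nonneg_left hg1
      (by norm_num : (0 : ℝ) ≤ 0.6634)) hS
    refine e.trans ?_
    have A : 0 ≤ ρ - 8 / 11 := by linarith
    have B : 0 ≤ 2.3026 - ρ := by linarith
    nlinarith [pow_nonneg B 4, mul_nonneg A (pow_nonneg B 3),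
      mul_nonneg (pow_nonneg A 2) (pow_nonneg B 2), mul_nonneg (pow_nonneg A 3) B,
      pow_nonneg A 4]
  · have e := mul_le_mul_of_nonneg_right (mul_le_mul_of_nonneg_left hg2
      (by norm_num : (0 : ℝ) ≤ 0.6634)) hS
    refine e.trans ?_
    have A : 0 ≤ ρ - 2.3026 := by linarith
    have B : 0 ≤ 4.51 - ρ := by linarith
    nlinarith [pow_nonneg B 5, mul_nonneg A (pow_nonneg B 4),
      mul_nonneg (pow_nonneg A 2) (pow_nonneg B 3), mul_nonneg (pow_nonneg A 3) (pow_nonneg B 2),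
      mul_nonneg (pow_nonneg A 4) B, pow_nonneg A 5]


/-- normalised kernel bound -/
theorem kern7_gen {θ κ g X W ρ : ℝ} (hθ : 0 < θ) (hκ : 0 ≤ κ) (hκ1 : κ ≤ 3.98) (hg0 : 0 ≤ g)
    (hg1 : g ≤ 1) (hg2 : g ≤ 2 - 9989 / 23000 * ρ) (hX : 0 ≤ X) (hXW : X ≤ (θ * W) ^ 2)
    (hρ : 0 ≤ ρ) (hρ3 : ρ ≤ 4.51) (hw1 : 2.75 * ρ ≤ 2 → W = 2) (hw2 : 2 < 2.75 * ρ → W = 2.75 * ρ)
    (hA : ∀ Y : ℝ, 0 ≤ Y → Y ≤ 64 / 121 →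
      κ * ((1 + (θ * 2) ^ 2 + Y) ^ 2 - 4 * (θ * 2) ^ 2 * Y) ≤ 8 * (1 + (θ * 2) ^ 2 + Y))
    (hB : ∀ ρ g : ℝ, 8 / 11 ≤ ρ → ρ ≤ 4.51 → g ≤ 1 → g ≤ 2 - 9989 / 23000 * ρ →
      κ * g * ((1 + (θ * (2.75 * ρ)) ^ 2 + ρ ^ 2) ^ 2 - 4 * (θ * (2.75 * ρ)) ^ 2 * ρ ^ 2) ≤
        4 * (2.75 * ρ) * (1 + (θ * (2.75 * ρ)) ^ 2 + ρ ^ 2)) :
    κ * g * ((1 + X + ρ ^ 2) ^ 2 - 4 * X * ρ ^ 2) ≤ 4 * W * (1 + X + ρ ^ 2) := by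
  have hκg : 0 ≤ κ * g := mul_nonneg hκ hg0
  rcases le_or_gt (2.75 * ρ) 2 with h | h
  · have hW := hw1 h
    subst hW
    have hρ1 : ρ ≤ 8 / 11 := by linarith
    have hY : ρ ^ 2 ≤ 64 / 121 := by nlinarith
    have hY0 : 0 ≤ ρ ^ 2 := by positivity
    refine interp7 hX hXW (by positivity) hκg ?_ ?_
    · have e : κ * g ≤ 3.98 * 1 := mul_le_mul hκ1 hg1 hg0 (by norm_num)
      have e2 : κ * g * (1 + ρ ^ 2) ≤ 8 := by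
        calc κ * g * (1 + ρ ^ 2) ≤ 3.98 * 1 * (1 + ρ ^ 2) := by gcongr
          _ ≤ 8 := by linarith
      have e3 : κ * g * (1 + ρ ^ 2) * (1 + ρ ^ 2) ≤ 8 * (1 + ρ ^ 2) := by gcongr
      nlinarith
    · have e := hA (ρ ^ 2) hY0 hY
      have hS : 0 ≤ (1 + (θ * 2) ^ 2 + ρ ^ 2) ^ 2 - 4 * (θ * 2) ^ 2 * ρ ^ 2 := by
        have : (1 + (θ * 2) ^ 2 + ρ ^ 2) ^ 2 - 4 * (θ * 2) ^ 2 * ρ ^ 2 =
          1 + 2 * ((θ * 2) ^ 2 + ρ ^ 2) + ((θ * 2) ^ 2 - ρ ^ 2) ^ 2 := by ring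
        rw [this]; positivity
      have e2 : κ * g * ((1 + (θ * 2) ^ 2 + ρ ^ 2) ^ 2 - 4 * (θ * 2) ^ 2 * ρ ^ 2) ≤
          κ * 1 * ((1 + (θ * 2) ^ 2 + ρ ^ 2) ^ 2 - 4 * (θ * 2) ^ 2 * ρ ^ 2) :=
        mul_le_mul_of_nonneg_right (mul_le_mul_of_nonneg_left hg1 hκ) hS
      linarith
  · have hW := hw2 h
    subst hW
    have hρ1 : 8 / 11 ≤ ρ := by linarith
    have hρ0 : 0 < ρ := by linarith
    refine interp7 hX hXW (by positivity) hκg ?_ ?_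
    · have e0 := end0 hρ1 hρ3 hg1 hg2
      have e : κ * g * (1 + ρ ^ 2) ≤ 11 * ρ := by
        refine le_trans ?_ e0
        gcongr
      have e3 : κ * g * (1 + ρ ^ 2) * (1 + ρ ^ 2) ≤ 11 * ρ * (1 + ρ ^ 2) := by gcongr
      nlinarith
    · have e := hB ρ g hρ1 hρ3 hg1 hg2
      linarith

/-- from the normalised bound to the kernel -/
theorem kern7_un {θ κ g a w y ξ : ℝ} (ha : 0 < a) (hξ0 : 0 ≤ ξ) (hξw : ξ ≤ θ * w)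
    (hg0 : 0 ≤ g) (hg1 : g ≤ 1) (hg2 : g ≤ 2 - 0.9989 * |y| / (2.3 * a))
    (hy : |y| ≤ 4.51 * a) (hw1 : 2.75 * |y| ≤ 2 * a → w = 2 * a)
    (hw2 : 2 * a < 2.75 * |y| → w = 2.75 * |y|)
    (hθ : 0 < θ) (hκ : 0 ≤ κ) (hκ1 : κ ≤ 3.98)
    (hA : ∀ Y : ℝ, 0 ≤ Y → Y ≤ 64 / 121 →
      κ * ((1 + (θ * 2) ^ 2 + Y) ^ 2 - 4 * (θ * 2) ^ 2 * Y) ≤ 8 * (1 + (θ * 2) ^ 2 + Y))
    (hB : ∀ ρ g : ℝ, 8 / 11 ≤ ρ → ρ ≤ 4.51 → g ≤ 1 → g ≤ 2 - 9989 / 23000 * ρ →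
      κ * g * ((1 + (θ * (2.75 * ρ)) ^ 2 + ρ ^ 2) ^ 2 - 4 * (θ * (2.75 * ρ)) ^ 2 * ρ ^ 2) ≤
        4 * (2.75 * ρ) * (1 + (θ * (2.75 * ρ)) ^ 2 + ρ ^ 2)) :
    κ * g ≤ w * (2 * a * (1 / (a ^ 2 + (ξ + y) ^ 2) + 1 / (a ^ 2 + (ξ - y) ^ 2))) := by
  have p1 : 0 < a ^ 2 + (ξ + y) ^ 2 := by positivity
  have p2 : 0 < a ^ 2 + (ξ - y) ^ 2 := by positivity
  have h := kern7_gen (X := (ξ / a) ^ 2) (W := w / a) (ρ := |y| / a) hθ hκ hκ1 hg0 hg1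
    (by
      refine hg2.trans (le_of_eq ?_)
      field_simp
      ring)
    (by positivity)
    (by
      have : ξ / a ≤ θ * (w / a) := by
        rw [← mul_div_assoc]; gcongr
      exact pow_le_pow_left₀ (by positivity) this 2)
    (by positivity) (by rw [div_le_iff₀ ha]; exact hy)
    (fun h => by
      rw [← mul_div_assoc, div_le_iff₀ ha] at h
      rw [hw1 h]; field_simp)
    (fun h => by
      rw [← mul_div_assoc, lt_div_iff₀ ha] at h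
      rw [hw2 h]; ring)
    hA hB
  have hy2 : (|y| / a) ^ 2 = y ^ 2 / a ^ 2 := by rw [div_pow, sq_abs]
  rw [hy2, div_pow] at h
  have e1 : (1 + ξ ^ 2 / a ^ 2 + y ^ 2 / a ^ 2) ^ 2 - 4 * (ξ ^ 2 / a ^ 2) * (y ^ 2 / a ^ 2) =
      ((a ^ 2 + (ξ + y) ^ 2) * (a ^ 2 + (ξ - y) ^ 2)) / a ^ 4 := by
    field_simp
    ring
  have e2 : 4 * (w / a) * (1 + ξ ^ 2 / a ^ 2 + y ^ 2 / a ^ 2) =
      (w * (2 * a * (2 * (a ^ 2 + ξ ^ 2 + y ^ 2)))) / a ^ 4 := by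
    field_simp
    ring
  rw [e1, e2, ← mul_div_assoc, div_le_div_iff_of_pos_right (by positivity)] at h
  have e3 : w * (2 * a * (1 / (a ^ 2 + (ξ + y) ^ 2) + 1 / (a ^ 2 + (ξ - y) ^ 2))) =
      (w * (2 * a * (2 * (a ^ 2 + ξ ^ 2 + y ^ 2)))) /
        ((a ^ 2 + (ξ + y) ^ 2) * (a ^ 2 + (ξ - y) ^ 2)) := by
    field_simp
    ring
  rw [e3, le_div_iff₀ (by positivity)]
  exact h

/-- first range -/
theorem kern7_one {g a w y ξ : ℝ} (ha : 0 < a) (hξ0 : 0 ≤ ξ) (hξw : ξ ≤ 0.5001 * w)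
    (hg0 : 0 ≤ g) (hg1 : g ≤ 1) (hg2 : g ≤ 2 - 0.9989 * |y| / (2.3 * a))
    (hy : |y| ≤ 4.51 * a) (hw1 : 2.75 * |y| ≤ 2 * a → w = 2 * a)
    (hw2 : 2 * a < 2.75 * |y| → w = 2.75 * |y|) :
    3.98 * g ≤ w * (2 * a * (1 / (a ^ 2 + (ξ + y) ^ 2) + 1 / (a ^ 2 + (ξ - y) ^ 2))) :=
  kern7_un ha hξ0 hξw hg0 hg1 hg2 hy hw1 hw2 (by norm_num) (by norm_num) (by norm_num)
    (fun Y h1 h2 => by nlinarith) (fun ρ g h1 h2 h3 h4 => end1 h1 h2 h3 h4)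

/-- second range -/
theorem kern7_two {g a w y ξ : ℝ} (ha : 0 < a) (hξ0 : 0 ≤ ξ) (hξw : ξ ≤ 0.7504 * w)
    (hg0 : 0 ≤ g) (hg1 : g ≤ 1) (hg2 : g ≤ 2 - 0.9989 * |y| / (2.3 * a))
    (hy : |y| ≤ 4.51 * a) (hw1 : 2.75 * |y| ≤ 2 * a → w = 2 * a)
    (hw2 : 2 * a < 2.75 * |y| → w = 2.75 * |y|) :
    1.99 * g ≤ w * (2 * a * (1 / (a ^ 2 + (ξ + y) ^ 2) + 1 / (a ^ 2 + (ξ - y) ^ 2))) :=
  kern7_un ha hξ0 hξw hg0 hg1 hg2 hy hw1 hw2 (by norm_num) (by norm_num) (by norm_num)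
    (fun Y h1 h2 => by nlinarith) (fun ρ g h1 h2 h3 h4 => end2 h1 h2 h3 h4)

/-- third range -/
theorem kern7_three {g a w y ξ : ℝ} (ha : 0 < a) (hξ0 : 0 ≤ ξ) (hξw : ξ ≤ 1.0001 * w)
    (hg0 : 0 ≤ g) (hg1 : g ≤ 1) (hg2 : g ≤ 2 - 0.9989 * |y| / (2.3 * a))
    (hy : |y| ≤ 4.51 * a) (hw1 : 2.75 * |y| ≤ 2 * a → w = 2 * a)
    (hw2 : 2 * a < 2.75 * |y| → w = 2.75 * |y|) :
    0.6634 * g ≤ w * (2 * a * (1 / (a ^ 2 + (ξ + y) ^ 2) + 1 / (a ^ 2 + (ξ - y) ^ 2))) :=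
  kern7_un ha hξ0 hξw hg0 hg1 hg2 hy hw1 hw2 (by norm_num) (by norm_num) (by norm_num)
    (fun Y h1 h2 => by nlinarith) (fun ρ g h1 h2 h3 h4 => end3 h1 h2 h3 h4)

end Vale.Agent.P321.R3.H613
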