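import Vale.Agent.P321.UB.PoissonJensen
import Vale.Agent.P321.R3.H613.Kern7

/-! # Poisson-Jensen with a step function (wave 3, exponent 6) -/

namespace Vale.Agent.P321.R3.H613

open Complex MeasureTheory Metric Real Set Vale.Agent.P321.UB

/-- Lower bound for the sum of the Poisson kernels at `±ξ`. -/
theorem PK_pair7 {w0 ξ : ℝ} {s : ℂ} (h0 : 0 < w0) (h1 : 1000 * w0 ≤ s.re)
    (h2 : s.re ≤ 1 / 1000) :
    0.9979 * (2 * (s.re - w0) * (1 / ((s.re - w0) ^ 2 + (ξ + s.im) ^ 2) +
      1 / ((s.re - w0) ^ 2 + (ξ - s.im) ^ 2))) ≤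
      PK (Complex.exp (-s)) (circleMap 0 (Real.exp (-w0)) ξ) +
      PK (Complex.exp (-s)) (circleMap 0 (Real.exp (-w0)) (-ξ)) := by
  set a := s.re - w0 with ha
  have ha0 : 0 < a := by linarith
  have hz : ∀ x : ℝ, circleMap 0 (Real.exp (-w0)) x = Complex.exp (-w0 + x * I) := by
    intro x
    rw [circleMap_zero, Complex.exp_add]; push_cast; ring
  have hnz : ∀ x : ℝ, ‖circleMap 0 (Real.exp (-w0)) x‖ = Real.exp (-w0) := by
    intro x
    rw [hz, Complex.norm_exp]; simp
  have hnw : ‖Complex.exp (-s)‖ = Real.exp (-s.re) := by rw [Complex.norm_exp]; simp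
  have hdist : ∀ x : ℝ, ‖circleMap 0 (Real.exp (-w0)) x - Complex.exp (-s)‖ ^ 2 ≤
      a ^ 2 + (x + s.im) ^ 2 := by
    intro x
    have e1 : ‖circleMap 0 (Real.exp (-w0)) x - Complex.exp (-s)‖ ≤ ‖(-w0 + x * I : ℂ) - -s‖ := by
      rw [hz]
      exact norm_exp_sub_exp_le (by simp; linarith) (by simp; linarith)
    have e2 : ‖(-w0 + x * I : ℂ) - -s‖ ^ 2 = a ^ 2 + (x + s.im) ^ 2 := by
      rw [← Complex.normSq_eq_norm_sq, Complex.normSq_apply]
      have f1 : ((-w0 + x * I : ℂ) - -s).re = a := by simp [ha]; ring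
      have f2 : ((-w0 + x * I : ℂ) - -s).im = x + s.im := by simp
      rw [f1, f2]; ring
    calc _ ≤ ‖(-w0 + x * I : ℂ) - -s‖ ^ 2 := pow_le_pow_left₀ (norm_nonneg _) e1 2
      _ = _ := e2
  have hpos : ∀ x : ℝ, 0 < ‖circleMap 0 (Real.exp (-w0)) x - Complex.exp (-s)‖ := by
    intro x
    rw [norm_pos_iff, sub_ne_zero]
    intro h
    have := hnz x
    rw [h, hnw] at this
    have := Real.exp_injective this
    linarith
  have hnum : 2 * a * 0.9979 ≤ Real.exp (-w0) ^ 2 - Real.exp (-s.re) ^ 2 := by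
    have b1 : Real.exp (-w0) ^ 2 = Real.exp (-(2 * w0)) := by
      rw [← Real.exp_nat_mul]; congr 1; push_cast; ring
    have b2 : Real.exp (-s.re) ^ 2 = Real.exp (-(2 * w0)) * Real.exp (-(2 * a)) := by
      rw [← Real.exp_nat_mul, ← Real.exp_add]
      congr 1; rw [ha]; push_cast; ring
    have b3 : 1 - 2 * w0 ≤ Real.exp (-(2 * w0)) := by
      have := Real.add_one_le_exp (-(2 * w0)); linarith
    have b4 : Real.exp (-(2 * a)) ≤ 1 - 2 * a * 0.998 := by
      have c1 : Real.exp (-(2 * a)) ≤ 1 / (1 + 2 * a) := by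
        rw [Real.exp_neg, ← one_div]
        apply one_div_le_one_div_of_le (by linarith)
        linarith [Real.add_one_le_exp (2 * a)]
      have c2 : 1 / (1 + 2 * a) ≤ 1 - 2 * a * 0.998 := by
        rw [div_le_iff₀ (by linarith)]
        nlinarith
      linarith
    have b5 : (1 - 2 * w0) * (2 * a * 0.998) ≤ Real.exp (-(2 * w0)) * (1 - Real.exp (-(2 * a))) := by
      apply mul_le_mul b3 (by linarith) (by positivity) (Real.exp_pos _).le
    rw [b1, b2]
    have b6 : 2 * a * 0.9979 ≤ (1 - 2 * w0) * (2 * a * 0.998) := by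
      nlinarith
    linarith
  have hPK : ∀ x : ℝ, 2 * a * 0.9979 * (1 / (a ^ 2 + (x + s.im) ^ 2)) ≤
      PK (Complex.exp (-s)) (circleMap 0 (Real.exp (-w0)) x) := by
    intro x
    unfold PK
    rw [hnz, hnw, mul_one_div]
    have h3 := hdist x
    have h4 := hpos x
    have h5 : 0 < a ^ 2 + (x + s.im) ^ 2 := by positivity
    rw [div_le_div_iff₀ h5 (by positivity)]
    calc 2 * a * 0.9979 * ‖circleMap 0 (Real.exp (-w0)) x - Complex.exp (-s)‖ ^ 2
        ≤ 2 * a * 0.9979 * (a ^ 2 + (x + s.im) ^ 2) := by gcongr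
      _ ≤ (Real.exp (-w0) ^ 2 - Real.exp (-s.re) ^ 2) * (a ^ 2 + (x + s.im) ^ 2) := by gcongr
  have k1 := hPK ξ
  have k2 := hPK (-ξ)
  have e3 : (-ξ + s.im) ^ 2 = (ξ - s.im) ^ 2 := by ring
  rw [e3] at k2
  have k4 : 0.9979 * (2 * a * (1 / (a ^ 2 + (ξ + s.im) ^ 2) + 1 / (a ^ 2 + (ξ - s.im) ^ 2))) =
      2 * a * 0.9979 * (1 / (a ^ 2 + (ξ + s.im) ^ 2)) +
      2 * a * 0.9979 * (1 / (a ^ 2 + (ξ - s.im) ^ 2)) := by ring
  rw [k4]
  linarith

theorem int_cell {F : ℝ → ℝ} {l u : ℝ} (h0 : 0 ≤ l) (hlu : l ≤ u)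
    (hu : u ≤ 2 * π) :
    ∫ θ in (0)..(2 * π), (Ioo l u).indicator F θ = ∫ θ in l..u, F θ := by
  rw [intervalIntegral.integral_of_le (by positivity), setIntegral_indicator measurableSet_Ioo,
    intervalIntegral.integral_of_le hlu, integral_Ioc_eq_integral_Ioo]
  congr 2
  exact Set.inter_eq_right.2 fun x hx => ⟨h0.trans_lt hx.1, (hx.2.trans_le hu).le⟩

/-- Poisson-Jensen with the majorant `log A - φ j` on the cell `j`. -/
theorem sum_core7 {w0 A ε h : ℝ} {s : ℂ} {N m : ℕ} {a : ℕ → ℂ}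
    (hreal : ∀ k, (starRingEnd ℂ) (a k) = a k) (h0 : w0 < s.re)
    (hh : 0 < h) (hNh : (N : ℝ) * h ≤ 1)
    (hA : ∀ x : ℝ, ‖expSum m a ((w0 : ℂ) - x * I)‖ ≤ A) (hε : 0 < ε) (hs : ε ≤ ‖expSum m a s‖)
    (φ kap : ℕ → ℝ) (hφ : ∀ j < N, 0 ≤ φ j)
    (hkap : ∀ j < N, ∀ ξ : ℝ, j * h ≤ ξ → ξ ≤ (j + 1) * h →
      kap j ≤ PK (Complex.exp (-s)) (circleMap 0 (Real.exp (-w0)) ξ) +
        PK (Complex.exp (-s)) (circleMap 0 (Real.exp (-w0)) (-ξ)))
    (hbd : ∀ j < N, ∀ x : ℝ, j * h ≤ x → x ≤ (j + 1) * h →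
      expSum m a ((w0 : ℂ) - x * I) ≠ 0 →
      Real.log ‖expSum m a ((w0 : ℂ) - x * I)‖ ≤ Real.log A - φ j) :
    (∑ j ∈ Finset.range N, φ j * (kap j * h)) ≤ 2 * π * (Real.log A - Real.log ε) := by
  classical
  set r := Real.exp (-w0) with hr
  set wp := Complex.exp (-s) with hwdef
  have hw : ‖wp‖ < r := by
    rw [hwdef, hr, Complex.norm_exp, Complex.neg_re]
    apply Real.exp_lt_exp.2
    linarith
  set p : Polynomial ℂ := ∑ k ∈ Finset.range m, Polynomial.C (a k) * Polynomial.X ^ k with hpdef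
  have hpe : ∀ t : ℂ, p.eval (Complex.exp (-t)) = expSum m a t := by
    intro t
    rw [hpdef, Polynomial.eval_finsetSum]
    unfold expSum
    apply Finset.sum_congr rfl
    intro k _
    simp only [Polynomial.eval_mul, Polynomial.eval_C, Polynomial.eval_pow, Polynomial.eval_X]
    rw [← Complex.exp_nat_mul]
    congr 2; ring
  have hcm : ∀ ξ : ℝ, circleMap 0 r ξ = Complex.exp (-(w0 - ξ * I)) := by
    intro ξ
    rw [circleMap_zero, hr, neg_sub, sub_eq_add_neg, add_comm, Complex.exp_add]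
    push_cast; ring
  have hpc : ∀ ξ : ℝ, p.eval (circleMap 0 r ξ) = expSum m a ((w0 : ℂ) - ξ * I) := by
    intro ξ; rw [hcm, hpe]
  have hconj : ∀ ξ : ℝ, ‖p.eval (circleMap 0 r (-ξ))‖ = ‖p.eval (circleMap 0 r ξ)‖ := by
    intro ξ
    rw [hpc, hpc]
    have e : expSum m a ((w0 : ℂ) - (-ξ : ℝ) * I) =
        (starRingEnd ℂ) (expSum m a ((w0 : ℂ) - ξ * I)) := by
      unfold expSum
      rw [map_sum]
      refine Finset.sum_congr rfl fun k _ => ?_
      rw [map_mul, hreal, ← Complex.exp_conj]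
      congr 2
      simp
      left
      ring
    rw [e, RCLike.norm_conj]
  have hper : ∀ ξ : ℝ, circleMap 0 r (2 * π - ξ) = circleMap 0 r (-ξ) := by
    intro ξ
    have := periodic_circleMap 0 r (-ξ)
    rw [← this]
    congr 1
    ring
  have hpw : ε ≤ ‖p.eval wp‖ := by rw [hwdef, hpe]; exact hs
  have hpw0 : p.eval wp ≠ 0 := by
    intro h; rw [h, norm_zero] at hpw; linarith
  have hπ3 := Real.pi_gt_three
  -- the step function
  set E : ℕ → Set ℝ := fun j => Ioo ((j : ℝ) * h) ((j + 1) * h) with hE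
  have hjN : ∀ j < N, ((j : ℝ) + 1) * h ≤ 1 := by
    intro j hj
    have : (j + 1 : ℝ) ≤ N := by exact_mod_cast hj
    calc ((j : ℝ) + 1) * h ≤ N * h := by gcongr
      _ ≤ 1 := hNh
  set ψ : ℝ → ℝ := fun θ => ∑ j ∈ Finset.range N, φ j * (E j).indicator (fun _ => (1 : ℝ)) θ
    with hψ
  have huniq : ∀ j k : ℕ, ∀ θ : ℝ, θ ∈ E j → θ ∈ E k → j = k := by
    rintro j k θ ⟨ha1, ha2⟩ ⟨hb1, hb2⟩
    have c1 : (j : ℝ) < k + 1 := by
      have := ha1.trans hb2
      exact lt_of_mul_lt_mul_right this hh.le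
    have c2 : (k : ℝ) < j + 1 := by
      have := hb1.trans ha2
      exact lt_of_mul_lt_mul_right this hh.le
    have c1' : j < k + 1 := by exact_mod_cast c1
    have c2' : k < j + 1 := by exact_mod_cast c2
    omega
  have hψ0 : ∀ θ : ℝ, (∀ j < N, θ ∉ E j) → ψ θ = 0 := by
    intro θ hθ
    apply Finset.sum_eq_zero
    intro j hj
    rw [Set.indicator_of_notMem (hθ j (Finset.mem_range.1 hj)), mul_zero]
  have hψ1 : ∀ θ : ℝ, ∀ j < N, θ ∈ E j → ψ θ = φ j := by
    intro θ j hj hθ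
    simp only [hψ]
    rw [Finset.sum_eq_single j]
    · rw [Set.indicator_of_mem hθ, mul_one]
    · intro k _ hkj
      rw [Set.indicator_of_notMem, mul_zero]
      intro hk
      exact hkj (huniq _ _ θ hk hθ)
    · intro hj'
      exact absurd (Finset.mem_range.2 hj) hj'
  have hlt1 : ∀ θ : ℝ, ∀ j < N, θ ∈ E j → 0 < θ ∧ θ < 1 := by
    intro θ j hj hθ
    constructor
    · have : 0 ≤ (j : ℝ) * h := by positivity
      linarith [hθ.1]
    · linarith [hθ.2, hjN j hj]
  have hup : ∀ θ : ℝ, p.eval (circleMap 0 r θ) ≠ 0 →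
      Real.log ‖p.eval (circleMap 0 r θ)‖ ≤ Real.log A - ψ θ := by
    intro θ hθ
    by_cases hex : ∃ j < N, θ ∈ E j
    · obtain ⟨j, hj, hθj⟩ := hex
      rw [hψ1 θ j hj hθj, hpc]
      rw [hpc] at hθ
      exact hbd j hj θ hθj.1.le hθj.2.le hθ
    · push Not at hex
      rw [hψ0 θ hex, sub_zero]
      apply Real.log_le_log (norm_pos_iff.2 hθ)
      rw [hpc]; exact hA θ
  have hup2 : ∀ θ : ℝ, p.eval (circleMap 0 r θ) ≠ 0 →
      Real.log ‖p.eval (circleMap 0 r θ)‖ ≤ Real.log A - ψ (2 * π - θ) := by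
    intro θ hθ
    have e : ‖p.eval (circleMap 0 r (2 * π - θ))‖ = ‖p.eval (circleMap 0 r θ)‖ := by
      rw [hper, hconj]
    rw [← e]
    apply hup
    rw [← norm_pos_iff, e, norm_pos_iff]
    exact hθ
  have hone : ∀ θ : ℝ, ψ θ = 0 ∨ ψ (2 * π - θ) = 0 := by
    intro θ
    by_cases hex : ∃ j < N, θ ∈ E j
    · right
      obtain ⟨j, hj, hθj⟩ := hex
      apply hψ0
      intro k hk hk2
      have b1 := hlt1 _ _ hj hθj
      have b2 := hlt1 _ _ hk hk2
      linarith [b1.2, b2.2]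
    · left
      push Not at hex
      exact hψ0 θ hex
  set F : ℝ → ℝ := fun θ => PK wp (circleMap 0 r θ) with hF
  have hFc : Continuous F := continuous_PK_circleMap hw
  set F' : ℝ → ℝ := fun θ => F (2 * π - θ) with hF'
  have hFc' : Continuous F' := hFc.comp (by fun_prop)
  have hInd : ∀ {G : ℝ → ℝ}, Continuous G → ∀ j, IntervalIntegrable ((E j).indicator G) volume 0
      (2 * π) := by
    intro G hG j
    have hGi : IntervalIntegrable G volume 0 (2 * π) := hG.intervalIntegrable _ _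
    rw [intervalIntegrable_iff] at hGi ⊢
    exact hGi.indicator measurableSet_Ioo
  have hInd2 : ∀ j, IntervalIntegrable (fun θ => (E j).indicator F' (2 * π - θ)) volume 0
      (2 * π) := by
    intro j
    have := (hInd hFc' j).comp_sub_left (2 * π)
    rw [sub_zero, sub_self] at this
    exact this.symm
  have hFi : IntervalIntegrable F volume 0 (2 * π) := hFc.intervalIntegrable _ _
  set v : ℝ → ℝ := fun θ => Real.log A - ψ θ - ψ (2 * π - θ) with hv
  have hFv : (fun θ => F θ * v θ) =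
      fun θ => Real.log A * F θ - (∑ j ∈ Finset.range N, φ j * (E j).indicator F θ) -
        ∑ j ∈ Finset.range N, φ j * (E j).indicator F' (2 * π - θ) := by
    funext θ
    have e1 : F θ * ψ θ = ∑ j ∈ Finset.range N, φ j * (E j).indicator F θ := by
      simp only [hψ]
      rw [Finset.mul_sum]
      refine Finset.sum_congr rfl fun j _ => ?_
      by_cases hθ : θ ∈ E j
      · simp only [Set.indicator_of_mem hθ]; ring
      · simp only [Set.indicator_of_notMem hθ]; ring
    have e2 : F θ * ψ (2 * π - θ) =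
        ∑ j ∈ Finset.range N, φ j * (E j).indicator F' (2 * π - θ) := by
      simp only [hψ]
      rw [Finset.mul_sum]
      refine Finset.sum_congr rfl fun j _ => ?_
      by_cases hθ : 2 * π - θ ∈ E j
      · simp only [Set.indicator_of_mem hθ, hF']
        rw [sub_sub_cancel]; ring
      · simp only [Set.indicator_of_notMem hθ]; ring
    rw [← e1, ← e2]
    simp only [hv]
    ring
  have hS1 : IntervalIntegrable (fun θ => ∑ j ∈ Finset.range N, φ j * (E j).indicator F θ)
      volume 0 (2 * π) := by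
    have e : (fun θ => ∑ j ∈ Finset.range N, φ j * (E j).indicator F θ) =
        ∑ j ∈ Finset.range N, fun θ => φ j * (E j).indicator F θ := by
      funext θ; rw [Finset.sum_apply]
    rw [e]
    apply IntervalIntegrable.sum
    intro j _
    exact (hInd hFc j).const_mul _
  have hS2 : IntervalIntegrable (fun θ => ∑ j ∈ Finset.range N,
      φ j * (E j).indicator F' (2 * π - θ)) volume 0 (2 * π) := by
    have e : (fun θ => ∑ j ∈ Finset.range N, φ j * (E j).indicator F' (2 * π - θ)) =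
        ∑ j ∈ Finset.range N, fun θ => φ j * (E j).indicator F' (2 * π - θ) := by
      funext θ; rw [Finset.sum_apply]
    rw [e]
    apply IntervalIntegrable.sum
    intro j _
    exact (hInd2 j).const_mul _
  have key := log_norm_eval_le (v := v) hw p hpw0
    (by
      have : IntervalIntegrable (fun θ => F θ * v θ) volume 0 (2 * π) := by
        rw [hFv]
        exact ((hFi.const_mul _).sub hS1).sub hS2
      exact this)
    (by
      intro θ hθ
      simp only [hv]
      rcases hone θ with h3 | h3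
      · rw [h3, sub_zero]; exact hup2 θ hθ
      · rw [h3, sub_zero]; exact hup θ hθ)
  have hcell : ∀ j < N, ∫ θ in (0)..(2 * π), (E j).indicator F θ =
      ∫ θ in ((j : ℝ) * h)..((j + 1) * h), F θ := by
    intro j hj
    exact int_cell (by positivity) (by nlinarith) (by linarith [hjN j hj])
  have hcell' : ∀ j < N, ∫ θ in (0)..(2 * π), (E j).indicator F' (2 * π - θ) =
      ∫ θ in ((j : ℝ) * h)..((j + 1) * h), F' θ := by
    intro j hj
    rw [intervalIntegral.integral_comp_sub_left (fun x => (E j).indicator F' x) (2 * π), sub_self,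
      sub_zero]
    exact int_cell (by positivity) (by nlinarith) (by linarith [hjN j hj])
  have hint : ∫ θ in (0)..(2 * π), PK wp (circleMap 0 r θ) * v θ =
      Real.log A * (2 * π) - ∑ j ∈ Finset.range N, φ j *
        ∫ θ in ((j : ℝ) * h)..((j + 1) * h), (F θ + F' θ) := by
    have e1 : ∫ θ in (0)..(2 * π), PK wp (circleMap 0 r θ) * v θ =
        ∫ θ in (0)..(2 * π), (Real.log A * F θ -
          (∑ j ∈ Finset.range N, φ j * (E j).indicator F θ) -
          ∑ j ∈ Finset.range N, φ j * (E j).indicator F' (2 * π - θ)) := by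
      rw [← hFv]
    rw [e1, intervalIntegral.integral_sub ((hFi.const_mul _).sub hS1) hS2,
      intervalIntegral.integral_sub (hFi.const_mul _) hS1,
      intervalIntegral.integral_const_mul, integral_PK hw,
      intervalIntegral.integral_finsetSum (fun j _ => (hInd hFc j).const_mul _),
      intervalIntegral.integral_finsetSum (fun j _ => (hInd2 j).const_mul _), sub_sub,
      ← Finset.sum_add_distrib]
    congr 1
    refine Finset.sum_congr rfl fun j hj => ?_
    have hj' := Finset.mem_range.1 hj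
    rw [intervalIntegral.integral_const_mul, intervalIntegral.integral_const_mul, hcell j hj',
      hcell' j hj', ← mul_add, intervalIntegral.integral_add (hFc.intervalIntegrable _ _)
      (hFc'.intervalIntegrable _ _)]
  have hlow : ∀ j < N, kap j * h ≤ ∫ θ in ((j : ℝ) * h)..((j + 1) * h), (F θ + F' θ) := by
    intro j hj
    have hle : (j : ℝ) * h ≤ (j + 1) * h := by nlinarith
    have e : kap j * h = ∫ θ in ((j : ℝ) * h)..((j + 1) * h), kap j := by
      rw [intervalIntegral.integral_const, smul_eq_mul]; ring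
    rw [e]
    apply intervalIntegral.integral_mono_on hle (by simp)
      ((hFc.add hFc').intervalIntegrable _ _)
    intro θ hθ
    have := hkap j hj θ hθ.1 hθ.2
    change kap j ≤ PK wp (circleMap 0 r θ) + PK wp (circleMap 0 r (2 * π - θ))
    rw [hper]
    exact this
  have hlogε : Real.log ε ≤ Real.log ‖p.eval wp‖ := Real.log_le_log hε hpw
  rw [hint] at key
  have hsum : (∑ j ∈ Finset.range N, φ j * (kap j * h)) ≤
      ∑ j ∈ Finset.range N, φ j * ∫ θ in ((j : ℝ) * h)..((j + 1) * h), (F θ + F' θ) :=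
    Finset.sum_le_sum fun j hj => mul_le_mul_of_nonneg_left (hlow j (Finset.mem_range.1 hj))
      (hφ j (Finset.mem_range.1 hj))
  have h8 := hlogε.trans key
  have h9 : 2 * π * Real.log ε ≤ 2 * π * ((2 * π)⁻¹ *
      (Real.log A * (2 * π) - ∑ j ∈ Finset.range N, φ j *
        ∫ θ in ((j : ℝ) * h)..((j + 1) * h), (F θ + F' θ))) :=
    mul_le_mul_of_nonneg_left h8 (by positivity)
  rw [← mul_assoc, mul_inv_cancel₀ (by positivity), one_mul] at h9
  linarith

/-- Poisson-Jensen with a step function: weights `12, 6, 2` on three ranges of cells. -/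
theorem count7 {w0 A ε c h w g : ℝ} {s : ℂ} {H m : ℕ} {a : ℕ → ℂ}
    (hreal : ∀ k, (starRingEnd ℂ) (a k) = a k) (h0 : 0 < w0) (h1 : 1000 * w0 ≤ s.re)
    (h2 : s.re ≤ 1 / 1000) (hy : |s.im| ≤ 4.505 * s.re)
    (hw1 : 2.75 * |s.im| ≤ 2 * (s.re - w0) → w = 2 * (s.re - w0))
    (hw2 : 2 * (s.re - w0) < 2.75 * |s.im| → w = 2.75 * |s.im|)
    (hh : 0 < h) (hh2 : 10 ^ 4 * h ≤ w) (hA1 : 1 ≤ A)
    (hA : ∀ x : ℝ, ‖expSum m a ((w0 : ℂ) - x * I)‖ ≤ A) (hε : 0 < ε) (hs : ε ≤ ‖expSum m a s‖)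
    (hg0 : 0 < g) (hg1 : g ≤ 1) (hg2 : g ≤ 2 - 0.9989 * |s.im| / (2.3 * (s.re - w0)))
    (hc : 19 * (Real.log A - Real.log ε) ≤ c * g)
    (hH : 2 * (H : ℝ) * h ≤ w) (hH' : 0.9999 * w ≤ 2 * (H : ℝ) * h) :
    ∃ φ x : ℕ → ℝ, (∀ j < 2 * H + 1, 0 ≤ φ j) ∧
      (∀ j < 2 * H + 1, j * h ≤ x j ∧ x j ≤ (j + 1) * h ∧
        Real.exp (-φ j) ≤ ‖expSum m a ((w0 : ℂ) - x j * I)‖) ∧
      6 * (∑ j ∈ Finset.range (H + 1), φ j) + 4 * (∑ j ∈ Finset.range (H + (H + 7) / 2), φ j) +
        2 * (∑ j ∈ Finset.range (2 * H + 1), φ j) ≤ 2 * H * c := by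
  classical
  have ha0 : 0 < s.re - w0 := by linarith
  have hy' : |s.im| ≤ 4.51 * (s.re - w0) := by linarith
  have hw0 : 0 < w := by linarith
  have hwle : w ≤ 1 / 50 := by
    rcases le_or_gt (2.75 * |s.im|) (2 * (s.re - w0)) with h3 | h3
    · rw [hw1 h3]; linarith
    · rw [hw2 h3]; linarith
  have hNh : ((2 * H + 1 : ℕ) : ℝ) * h ≤ 1 := by push_cast; linarith
  have hHbig : (4999 : ℝ) ≤ H := by
    have : 0.9999 * (10 ^ 4 * h) ≤ 2 * H * h := by linarith
    have : 9999 * h ≤ 2 * H * h := by linarith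
    have := le_of_mul_le_mul_right this hh
    linarith
  have hHn : 4999 ≤ H := by exact_mod_cast hHbig
  -- kernel weights
  set W : ℕ → ℝ := fun j => 6 * (if j < H + 1 then 1 else 0) +
    4 * (if j < H + (H + 7) / 2 then 1 else 0) + 2 with hW
  set kap : ℕ → ℝ := fun j => 0.9979 * (199 / 600) * g / w * W j with hkapdef
  have hkap : ∀ j < 2 * H + 1, ∀ ξ : ℝ, j * h ≤ ξ → ξ ≤ (j + 1) * h →
      kap j ≤ PK (Complex.exp (-s)) (circleMap 0 (Real.exp (-w0)) ξ) +
        PK (Complex.exp (-s)) (circleMap 0 (Real.exp (-w0)) (-ξ)) := by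
    intro j hj ξ hξ1 hξ2
    refine le_trans ?_ (PK_pair7 h0 h1 h2)
    have hξ0 : 0 ≤ ξ := le_trans (by positivity) hξ1
    simp only [hkapdef]
    rw [div_mul_eq_mul_div, div_le_iff₀ hw0]
    by_cases c1 : j < H + 1
    · have c2 : j < H + (H + 7) / 2 := by omega
      have hWj : W j = 12 := by simp only [hW, if_pos c1, if_pos c2]; norm_num
      have hjle : (j : ℝ) + 1 ≤ H + 1 := by exact_mod_cast c1
      have hξw : ξ ≤ 0.5001 * w := by
        have : ((j : ℝ) + 1) * h ≤ (H + 1) * h := by gcongr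
        linarith
      have hk := kern7_one ha0 hξ0 hξw hg0.le hg1 hg2 hy' hw1 hw2
      rw [hWj]
      linarith
    · by_cases c2 : j < H + (H + 7) / 2
      · have hWj : W j = 6 := by simp only [hW, if_neg c1, if_pos c2]; norm_num
        have hjle : 2 * (j + 1) ≤ 3 * H + 7 := by omega
        have hjle' : 2 * ((j : ℝ) + 1) ≤ 3 * H + 7 := by exact_mod_cast hjle
        have hξw : ξ ≤ 0.7504 * w := by
          have : 2 * ((j : ℝ) + 1) * h ≤ (3 * H + 7) * h := by gcongr
          linarith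
        have hk := kern7_two ha0 hξ0 hξw hg0.le hg1 hg2 hy' hw1 hw2
        rw [hWj]
        linarith
      · have hWj : W j = 2 := by simp only [hW, if_neg c1, if_neg c2]; norm_num
        have hjle' : ((j : ℝ) + 1) ≤ 2 * H + 1 := by exact_mod_cast hj
        have hξw : ξ ≤ 1.0001 * w := by
          have : ((j : ℝ) + 1) * h ≤ (2 * H + 1) * h := by gcongr
          linarith
        have hk := kern7_three ha0 hξ0 hξw hg0.le hg1 hg2 hy' hw1 hw2
        rw [hWj]
        linarith
  have hkpos : ∀ j, 0 < kap j := by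
    intro j
    simp only [hkapdef, hW]
    have : (0 : ℝ) < 6 * (if j < H + 1 then 1 else 0) +
      4 * (if j < H + (H + 7) / 2 then 1 else 0) + 2 := by
      split_ifs <;> norm_num
    positivity
  -- the maximum points
  have hmax : ∀ j : ℕ, ∃ x : ℝ, (j * h ≤ x ∧ x ≤ (j + 1) * h) ∧
      ∀ y : ℝ, j * h ≤ y → y ≤ (j + 1) * h →
        ‖expSum m a ((w0 : ℂ) - y * I)‖ ≤ ‖expSum m a ((w0 : ℂ) - x * I)‖ := by
    intro j
    have hcont : Continuous fun x : ℝ => ‖expSum m a ((w0 : ℂ) - x * I)‖ := by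
      unfold expSum
      fun_prop
    obtain ⟨x, hx, hx2⟩ := (isCompact_Icc (a := (j : ℝ) * h) (b := (j + 1) * h)).exists_isMaxOn
      ⟨j * h, by constructor <;> nlinarith⟩ hcont.continuousOn
    exact ⟨x, ⟨hx.1, hx.2⟩, fun y hy1 hy2 => hx2 ⟨hy1, hy2⟩⟩
  choose x hx hxmax using hmax
  have hne : ∀ j < 2 * H + 1, expSum m a ((w0 : ℂ) - x j * I) ≠ 0 := by
    intro j hj hzero
    set K : ℝ := (2 * π * (Real.log A - Real.log ε) + 1) / (kap j * h) with hK
    have hkj : 0 < kap j * h := mul_pos (hkpos j) hh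
    have hall : ∀ y : ℝ, j * h ≤ y → y ≤ (j + 1) * h → expSum m a ((w0 : ℂ) - y * I) = 0 := by
      intro y hy1 hy2
      have := hxmax j y hy1 hy2
      rw [hzero, norm_zero] at this
      exact norm_le_zero_iff.1 this
    have hzero_sum := sum_core7 (N := 2 * H + 1) (h := h) hreal (by linarith : w0 < s.re) hh hNh hA
      hε hs (fun _ => 0) kap (fun _ _ => le_rfl) hkap
      (fun k _ y _ _ hy3 => by
        rw [sub_zero]
        exact Real.log_le_log (norm_pos_iff.2 hy3) (hA y))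
    have hK0 : 0 ≤ K := by
      apply div_nonneg _ hkj.le
      simp only [zero_mul, Finset.sum_const_zero] at hzero_sum
      linarith
    have := sum_core7 (N := 2 * H + 1) (h := h) hreal (by linarith : w0 < s.re) hh hNh hA
      hε hs (fun k => if k = j then K else 0) kap
      (fun k _ => by split_ifs <;> [exact hK0; exact le_rfl]) hkap
      (fun k hk y hy1 hy2 hy3 => by
        split_ifs with hkj2
        · subst hkj2
          exact absurd (hall y hy1 hy2) hy3
        · rw [sub_zero]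
          exact Real.log_le_log (norm_pos_iff.2 hy3) (hA y))
    rw [Finset.sum_eq_single j] at this
    · rw [if_pos rfl, hK, div_mul_cancel₀ _ hkj.ne'] at this
      linarith
    · intro k _ hkj2
      rw [if_neg hkj2, zero_mul]
    · intro hj2
      exact absurd (Finset.mem_range.2 hj) hj2
  set φ : ℕ → ℝ := fun j => Real.log A - Real.log ‖expSum m a ((w0 : ℂ) - x j * I)‖ with hφdef
  have hφ0 : ∀ j < 2 * H + 1, 0 ≤ φ j := by
    intro j hj
    have := Real.log_le_log (norm_pos_iff.2 (hne j hj)) (hA (x j))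
    simp only [hφdef]
    linarith
  refine ⟨φ, x, hφ0, fun j hj => ⟨(hx j).1, (hx j).2, ?_⟩, ?_⟩
  · have hp := norm_pos_iff.2 (hne j hj)
    simp only [hφdef]
    rw [neg_sub, Real.exp_sub, Real.exp_log hp, Real.exp_log (by linarith)]
    exact div_le_self hp.le hA1
  · have hmain := sum_core7 (N := 2 * H + 1) (h := h) hreal (by linarith : w0 < s.re) hh hNh hA
      hε hs φ kap hφ0 hkap
      (fun j hj y hy1 hy2 hy3 => by
        have := Real.log_le_log (norm_pos_iff.2 hy3) (hxmax j y hy1 hy2)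
        simp only [hφdef]
        linarith)
    have hS : (∑ j ∈ Finset.range (2 * H + 1), φ j * (kap j * h)) =
        0.9979 * (199 / 600) * g / w * h * (6 * (∑ j ∈ Finset.range (H + 1), φ j) +
          4 * (∑ j ∈ Finset.range (H + (H + 7) / 2), φ j) +
          2 * (∑ j ∈ Finset.range (2 * H + 1), φ j)) := by
      have hind : ∀ n ≤ 2 * H + 1, (∑ j ∈ Finset.range (2 * H + 1),
          φ j * (if j < n then 1 else 0)) = ∑ j ∈ Finset.range n, φ j := by
        intro n hn
        rw [← Finset.sum_subset (Finset.range_subset_range.2 hn)]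
        · refine Finset.sum_congr rfl fun j hj => ?_
          rw [if_pos (Finset.mem_range.1 hj), mul_one]
        · intro j _ hj
          rw [if_neg (fun h => hj (Finset.mem_range.2 h)), mul_zero]
      rw [← hind (H + 1) (by omega), ← hind (H + (H + 7) / 2) (by omega), Finset.mul_sum,
        Finset.mul_sum, Finset.mul_sum, ← Finset.sum_add_distrib, ← Finset.sum_add_distrib,
        Finset.mul_sum]
      refine Finset.sum_congr rfl fun j _ => ?_
      simp only [hkapdef, hW]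
      ring
    rw [hS] at hmain
    set T : ℝ := 6 * (∑ j ∈ Finset.range (H + 1), φ j) +
          4 * (∑ j ∈ Finset.range (H + (H + 7) / 2), φ j) +
          2 * (∑ j ∈ Finset.range (2 * H + 1), φ j) with hT
    have hT0 : 0 ≤ T := by
      have b1 : 0 ≤ ∑ j ∈ Finset.range (H + 1), φ j :=
        Finset.sum_nonneg fun j hj => hφ0 j (by have := Finset.mem_range.1 hj; omega)
      have b2 : 0 ≤ ∑ j ∈ Finset.range (H + (H + 7) / 2), φ j :=
        Finset.sum_nonneg fun j hj => hφ0 j (by have := Finset.mem_range.1 hj; omega)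
      have b3 : 0 ≤ ∑ j ∈ Finset.range (2 * H + 1), φ j :=
        Finset.sum_nonneg fun j hj => hφ0 j (Finset.mem_range.1 hj)
      rw [hT]; positivity
    have hπ2 : π < 3.1416 := Real.pi_lt_d4
    have hD : 0 ≤ Real.log A - Real.log ε := by
      have : 0 ≤ 2 * π * (Real.log A - Real.log ε) := le_trans (by positivity) hmain
      exact nonneg_of_mul_nonneg_right this (by positivity)
    have hcg : 0 ≤ c * g := by linarith
    have hc0 : 0 ≤ c := nonneg_of_mul_nonneg_left hcg hg0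
    -- clear denominators
    have m1 : 0.9979 * (199 / 600) * g * h * T ≤ 2 * π * (Real.log A - Real.log ε) * w := by
      have e : 0.9979 * (199 / 600) * g / w * h * T = 0.9979 * (199 / 600) * g * h * T / w := by
        ring
      rwa [e, div_le_iff₀ hw0] at hmain
    have m2 : 2 * π * (Real.log A - Real.log ε) * w ≤ 2 * 3.1416 * (c * g / 19) * w := by
      have : Real.log A - Real.log ε ≤ c * g / 19 := by linarith
      gcongr
    have m3 : 2 * 3.1416 * (c * g / 19) * w ≤ 2 * 3.1416 * (c * g / 19) * (2 * H * h / 0.9999) := by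
      have : w ≤ 2 * H * h / 0.9999 := by
        rw [le_div_iff₀ (by norm_num)]; linarith
      gcongr
    have m4 : 0.9979 * (199 / 600) * T * (g * h) ≤
        2 * 3.1416 / 19 / 0.9999 * (2 * H * c) * (g * h) := by
      calc 0.9979 * (199 / 600) * T * (g * h) = 0.9979 * (199 / 600) * g * h * T := by ring
        _ ≤ 2 * 3.1416 * (c * g / 19) * (2 * H * h / 0.9999) := m1.trans (m2.trans m3)
        _ = _ := by ring
    have m5 := le_of_mul_le_mul_right m4 (mul_pos hg0 hh)
    have hHc : 0 ≤ 2 * (H : ℝ) * c := by positivity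
    nlinarith

/-- the same with `g = min 1 (2 - |y| / (2.3 s.re))` -/
theorem count7_min {w0 A ε c h w : ℝ} {s : ℂ} {H m : ℕ} {a : ℕ → ℂ}
    (hreal : ∀ k, (starRingEnd ℂ) (a k) = a k) (h0 : 0 < w0) (h1 : 1000 * w0 ≤ s.re)
    (h2 : s.re ≤ 1 / 1000) (hy : |s.im| ≤ 4.505 * s.re)
    (hw : w = max (2 * (s.re - w0)) (2.75 * |s.im|))
    (hh : 0 < h) (hh2 : 10 ^ 4 * h ≤ w) (hA1 : 1 ≤ A)
    (hA : ∀ x : ℝ, ‖expSum m a ((w0 : ℂ) - x * I)‖ ≤ A) (hε : 0 < ε) (hs : ε ≤ ‖expSum m a s‖)
    (hc : 19 * (Real.log A - Real.log ε) ≤ c * min 1 (2 - |s.im| / (2.3 * s.re)))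
    (hH : 2 * (H : ℝ) * h ≤ w) (hH' : 0.9999 * w ≤ 2 * (H : ℝ) * h) :
    ∃ φ x : ℕ → ℝ, (∀ j < 2 * H + 1, 0 ≤ φ j) ∧
      (∀ j < 2 * H + 1, j * h ≤ x j ∧ x j ≤ (j + 1) * h ∧
        Real.exp (-φ j) ≤ ‖expSum m a ((w0 : ℂ) - x j * I)‖) ∧
      6 * (∑ j ∈ Finset.range (H + 1), φ j) + 4 * (∑ j ∈ Finset.range (H + (H + 7) / 2), φ j) +
        2 * (∑ j ∈ Finset.range (2 * H + 1), φ j) ≤ 2 * H * c := by
  have hs0 : 0 < s.re := by linarith
  have ha0 : 0 < s.re - w0 := by linarith
  have hq : |s.im| / (2.3 * s.re) ≤ 4.505 / 2.3 := by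
    rw [div_le_div_iff₀ (by positivity) (by norm_num)]
    nlinarith
  have hlt : (0 : ℝ) < 2 - |s.im| / (2.3 * s.re) := by
    have : (4.505 : ℝ) / 2.3 < 2 := by norm_num
    linarith
  refine count7 (g := min 1 (2 - |s.im| / (2.3 * s.re))) hreal h0 h1 h2 hy
    (fun h3 => by rw [hw, max_eq_left h3]) (fun h3 => by rw [hw, max_eq_right h3.le]) hh hh2 hA1 hA
    hε hs (lt_min one_pos hlt) (min_le_left _ _) ((min_le_right _ _).trans ?_) hc hH hH'
  have : 0.9989 * |s.im| / (2.3 * (s.re - w0)) ≤ |s.im| / (2.3 * s.re) := by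
    rw [div_le_div_iff₀ (by positivity) (by positivity)]
    have h3 : 0.9989 * (2.3 * s.re) ≤ 2.3 * (s.re - w0) := by linarith
    calc 0.9989 * |s.im| * (2.3 * s.re) = |s.im| * (0.9989 * (2.3 * s.re)) := by ring
      _ ≤ |s.im| * (2.3 * (s.re - w0)) := by gcongr
  linarith

end Vale.Agent.P321.R3.H613
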