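import Vale.Agent.P321.R3.H613.Count7
import Vale.Agent.P321.R3.H613.Kern7b

/-! # Poisson-Jensen with a step function, slope 1 / 2.303 -/

namespace Vale.Agent.P321.R3.H613.B

open Complex MeasureTheory Metric Real Set Vale.Agent.P321.UB

/-- Poisson-Jensen with a step function: weights `12, 6, 2` on three ranges of cells. -/
theorem count7g {w0 A ε c h w g : ℝ} {s : ℂ} {H m : ℕ} {a : ℕ → ℂ}
    (hreal : ∀ k, (starRingEnd ℂ) (a k) = a k) (h0 : 0 < w0) (h1 : 1000 * w0 ≤ s.re)
    (h2 : s.re ≤ 1 / 1000) (hy : |s.im| ≤ 4.51 * (s.re - w0))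
    (hw1 : 2.75 * |s.im| ≤ 2 * (s.re - w0) → w = 2 * (s.re - w0))
    (hw2 : 2 * (s.re - w0) < 2.75 * |s.im| → w = 2.75 * |s.im|)
    (hh : 0 < h) (hh2 : 10 ^ 4 * h ≤ w) (hA1 : 1 ≤ A)
    (hA : ∀ x : ℝ, ‖expSum m a ((w0 : ℂ) - x * I)‖ ≤ A) (hε : 0 < ε) (hs : ε ≤ ‖expSum m a s‖)
    (hg0 : 0 < g) (hg1 : g ≤ 1) (hg2 : g ≤ 2 - |s.im| / (2.303 * (s.re - w0)))
    (hc : 19 * (Real.log A - Real.log ε) ≤ c * g)
    (hH : 2 * (H : ℝ) * h ≤ w) (hH' : 0.9999 * w ≤ 2 * (H : ℝ) * h) :
    ∃ φ x : ℕ → ℝ, (∀ j < 2 * H + 1, 0 ≤ φ j) ∧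
      (∀ j < 2 * H + 1, j * h ≤ x j ∧ x j ≤ (j + 1) * h ∧
        Real.exp (-φ j) ≤ ‖expSum m a ((w0 : ℂ) - x j * I)‖) ∧
      6 * (∑ j ∈ Finset.range (H + 1), φ j) + 4 * (∑ j ∈ Finset.range (H + (H + 7) / 2), φ j) +
        2 * (∑ j ∈ Finset.range (2 * H + 1), φ j) ≤ 2 * H * c := by
  classical
  have ha0 : 0 < s.re - w0 := by linarith
  have hy' : |s.im| ≤ 4.51 * (s.re - w0) := hy
  have hw0 : 0 < w := by linarith
  have hwle : w ≤ 1 / 50 := by
    rcases le_or_gt (2.75 * |s.im|) (2 * (s.re - w0)) with h3 | h3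
    · rw [hw1 h3]; linarith
    · rw [hw2 h3]; linarith
  have hNh : ((2 * H + 1 : ℕ) : ℝ) * h ≤ 1 := by push_cast; linarith
  have hHbig : (4999 : ℝ) ≤ H := by
    have : 0.9999 * (10 ^ 4 * h) ≤ 2 * H * h := by linarith
    have : 9999 * h ≤ 2 * H * h := by linarith
    have := le_of_mul_le_mul_right this hh
    linarith
  have hHn : 4999 ≤ H := by exact_mod_cast hHbig
  -- kernel weights
  set W : ℕ → ℝ := fun j => 6 * (if j < H + 1 then 1 else 0) +
    4 * (if j < H + (H + 7) / 2 then 1 else 0) + 2 with hW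
  set kap : ℕ → ℝ := fun j => 0.9979 * (199 / 600) * g / w * W j with hkapdef
  have hkap : ∀ j < 2 * H + 1, ∀ ξ : ℝ, j * h ≤ ξ → ξ ≤ (j + 1) * h →
      kap j ≤ PK (Complex.exp (-s)) (circleMap 0 (Real.exp (-w0)) ξ) +
        PK (Complex.exp (-s)) (circleMap 0 (Real.exp (-w0)) (-ξ)) := by
    intro j hj ξ hξ1 hξ2
    refine le_trans ?_ (PK_pair7 h0 h1 h2)
    have hξ0 : 0 ≤ ξ := le_trans (by positivity) hξ1
    simp only [hkapdef]
    rw [div_mul_eq_mul_div, div_le_iff₀ hw0]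
    by_cases c1 : j < H + 1
    · have c2 : j < H + (H + 7) / 2 := by omega
      have hWj : W j = 12 := by simp only [hW, if_pos c1, if_pos c2]; norm_num
      have hjle : (j : ℝ) + 1 ≤ H + 1 := by exact_mod_cast c1
      have hξw : ξ ≤ 0.5001 * w := by
        have : ((j : ℝ) + 1) * h ≤ (H + 1) * h := by gcongr
        linarith
      have hk := kern7_one ha0 hξ0 hξw hg0.le hg1 hg2 hy' hw1 hw2
      rw [hWj]
      linarith
    · by_cases c2 : j < H + (H + 7) / 2
      · have hWj : W j = 6 := by simp only [hW, if_neg c1, if_pos c2]; norm_num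
        have hjle : 2 * (j + 1) ≤ 3 * H + 7 := by omega
        have hjle' : 2 * ((j : ℝ) + 1) ≤ 3 * H + 7 := by exact_mod_cast hjle
        have hξw : ξ ≤ 0.7504 * w := by
          have : 2 * ((j : ℝ) + 1) * h ≤ (3 * H + 7) * h := by gcongr
          linarith
        have hk := kern7_two ha0 hξ0 hξw hg0.le hg1 hg2 hy' hw1 hw2
        rw [hWj]
        linarith
      · have hWj : W j = 2 := by simp only [hW, if_neg c1, if_neg c2]; norm_num
        have hjle' : ((j : ℝ) + 1) ≤ 2 * H + 1 := by exact_mod_cast hj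
        have hξw : ξ ≤ 1.0001 * w := by
          have : ((j : ℝ) + 1) * h ≤ (2 * H + 1) * h := by gcongr
          linarith
        have hk := kern7_three ha0 hξ0 hξw hg0.le hg1 hg2 hy' hw1 hw2
        rw [hWj]
        linarith
  have hkpos : ∀ j, 0 < kap j := by
    intro j
    simp only [hkapdef, hW]
    have : (0 : ℝ) < 6 * (if j < H + 1 then 1 else 0) +
      4 * (if j < H + (H + 7) / 2 then 1 else 0) + 2 := by
      split_ifs <;> norm_num
    positivity
  -- the maximum points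
  have hmax : ∀ j : ℕ, ∃ x : ℝ, (j * h ≤ x ∧ x ≤ (j + 1) * h) ∧
      ∀ y : ℝ, j * h ≤ y → y ≤ (j + 1) * h →
        ‖expSum m a ((w0 : ℂ) - y * I)‖ ≤ ‖expSum m a ((w0 : ℂ) - x * I)‖ := by
    intro j
    have hcont : Continuous fun x : ℝ => ‖expSum m a ((w0 : ℂ) - x * I)‖ := by
      unfold expSum
      fun_prop
    obtain ⟨x, hx, hx2⟩ := (isCompact_Icc (a := (j : ℝ) * h) (b := (j + 1) * h)).exists_isMaxOn
      ⟨j * h, by constructor <;> nlinarith⟩ hcont.continuousOn
    exact ⟨x, ⟨hx.1, hx.2⟩, fun y hy1 hy2 => hx2 ⟨hy1, hy2⟩⟩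
  choose x hx hxmax using hmax
  have hne : ∀ j < 2 * H + 1, expSum m a ((w0 : ℂ) - x j * I) ≠ 0 := by
    intro j hj hzero
    set K : ℝ := (2 * π * (Real.log A - Real.log ε) + 1) / (kap j * h) with hK
    have hkj : 0 < kap j * h := mul_pos (hkpos j) hh
    have hall : ∀ y : ℝ, j * h ≤ y → y ≤ (j + 1) * h → expSum m a ((w0 : ℂ) - y * I) = 0 := by
      intro y hy1 hy2
      have := hxmax j y hy1 hy2
      rw [hzero, norm_zero] at this
      exact norm_le_zero_iff.1 this
    have hzero_sum := sum_core7 (N := 2 * H + 1) (h := h) hreal (by linarith : w0 < s.re) hh hNh hA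
      hε hs (fun _ => 0) kap (fun _ _ => le_rfl) hkap
      (fun k _ y _ _ hy3 => by
        rw [sub_zero]
        exact Real.log_le_log (norm_pos_iff.2 hy3) (hA y))
    have hK0 : 0 ≤ K := by
      apply div_nonneg _ hkj.le
      simp only [zero_mul, Finset.sum_const_zero] at hzero_sum
      linarith
    have := sum_core7 (N := 2 * H + 1) (h := h) hreal (by linarith : w0 < s.re) hh hNh hA
      hε hs (fun k => if k = j then K else 0) kap
      (fun k _ => by split_ifs <;> [exact hK0; exact le_rfl]) hkap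
      (fun k hk y hy1 hy2 hy3 => by
        split_ifs with hkj2
        · subst hkj2
          exact absurd (hall y hy1 hy2) hy3
        · rw [sub_zero]
          exact Real.log_le_log (norm_pos_iff.2 hy3) (hA y))
    rw [Finset.sum_eq_single j] at this
    · rw [if_pos rfl, hK, div_mul_cancel₀ _ hkj.ne'] at this
      linarith
    · intro k _ hkj2
      rw [if_neg hkj2, zero_mul]
    · intro hj2
      exact absurd (Finset.mem_range.2 hj) hj2
  set φ : ℕ → ℝ := fun j => Real.log A - Real.log ‖expSum m a ((w0 : ℂ) - x j * I)‖ with hφdef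
  have hφ0 : ∀ j < 2 * H + 1, 0 ≤ φ j := by
    intro j hj
    have := Real.log_le_log (norm_pos_iff.2 (hne j hj)) (hA (x j))
    simp only [hφdef]
    linarith
  refine ⟨φ, x, hφ0, fun j hj => ⟨(hx j).1, (hx j).2, ?_⟩, ?_⟩
  · have hp := norm_pos_iff.2 (hne j hj)
    simp only [hφdef]
    rw [neg_sub, Real.exp_sub, Real.exp_log hp, Real.exp_log (by linarith)]
    exact div_le_self hp.le hA1
  · have hmain := sum_core7 (N := 2 * H + 1) (h := h) hreal (by linarith : w0 < s.re) hh hNh hA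
      hε hs φ kap hφ0 hkap
      (fun j hj y hy1 hy2 hy3 => by
        have := Real.log_le_log (norm_pos_iff.2 hy3) (hxmax j y hy1 hy2)
        simp only [hφdef]
        linarith)
    have hS : (∑ j ∈ Finset.range (2 * H + 1), φ j * (kap j * h)) =
        0.9979 * (199 / 600) * g / w * h * (6 * (∑ j ∈ Finset.range (H + 1), φ j) +
          4 * (∑ j ∈ Finset.range (H + (H + 7) / 2), φ j) +
          2 * (∑ j ∈ Finset.range (2 * H + 1), φ j)) := by
      have hind : ∀ n ≤ 2 * H + 1, (∑ j ∈ Finset.range (2 * H + 1),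
          φ j * (if j < n then 1 else 0)) = ∑ j ∈ Finset.range n, φ j := by
        intro n hn
        rw [← Finset.sum_subset (Finset.range_subset_range.2 hn)]
        · refine Finset.sum_congr rfl fun j hj => ?_
          rw [if_pos (Finset.mem_range.1 hj), mul_one]
        · intro j _ hj
          rw [if_neg (fun h => hj (Finset.mem_range.2 h)), mul_zero]
      rw [← hind (H + 1) (by omega), ← hind (H + (H + 7) / 2) (by omega), Finset.mul_sum,
        Finset.mul_sum, Finset.mul_sum, ← Finset.sum_add_distrib, ← Finset.sum_add_distrib,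
        Finset.mul_sum]
      refine Finset.sum_congr rfl fun j _ => ?_
      simp only [hkapdef, hW]
      ring
    rw [hS] at hmain
    set T : ℝ := 6 * (∑ j ∈ Finset.range (H + 1), φ j) +
          4 * (∑ j ∈ Finset.range (H + (H + 7) / 2), φ j) +
          2 * (∑ j ∈ Finset.range (2 * H + 1), φ j) with hT
    have hT0 : 0 ≤ T := by
      have b1 : 0 ≤ ∑ j ∈ Finset.range (H + 1), φ j :=
        Finset.sum_nonneg fun j hj => hφ0 j (by have := Finset.mem_range.1 hj; omega)
      have b2 : 0 ≤ ∑ j ∈ Finset.range (H + (H + 7) / 2), φ j :=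
        Finset.sum_nonneg fun j hj => hφ0 j (by have := Finset.mem_range.1 hj; omega)
      have b3 : 0 ≤ ∑ j ∈ Finset.range (2 * H + 1), φ j :=
        Finset.sum_nonneg fun j hj => hφ0 j (Finset.mem_range.1 hj)
      rw [hT]; positivity
    have hπ2 : π < 3.1416 := Real.pi_lt_d4
    have hD : 0 ≤ Real.log A - Real.log ε := by
      have : 0 ≤ 2 * π * (Real.log A - Real.log ε) := le_trans (by positivity) hmain
      exact nonneg_of_mul_nonneg_right this (by positivity)
    have hcg : 0 ≤ c * g := by linarith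
    have hc0 : 0 ≤ c := nonneg_of_mul_nonneg_left hcg hg0
    -- clear denominators
    have m1 : 0.9979 * (199 / 600) * g * h * T ≤ 2 * π * (Real.log A - Real.log ε) * w := by
      have e : 0.9979 * (199 / 600) * g / w * h * T = 0.9979 * (199 / 600) * g * h * T / w := by
        ring
      rwa [e, div_le_iff₀ hw0] at hmain
    have m2 : 2 * π * (Real.log A - Real.log ε) * w ≤ 2 * 3.1416 * (c * g / 19) * w := by
      have : Real.log A - Real.log ε ≤ c * g / 19 := by linarith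
      gcongr
    have m3 : 2 * 3.1416 * (c * g / 19) * w ≤ 2 * 3.1416 * (c * g / 19) * (2 * H * h / 0.9999) := by
      have : w ≤ 2 * H * h / 0.9999 := by
        rw [le_div_iff₀ (by norm_num)]; linarith
      gcongr
    have m4 : 0.9979 * (199 / 600) * T * (g * h) ≤
        2 * 3.1416 / 19 / 0.9999 * (2 * H * c) * (g * h) := by
      calc 0.9979 * (199 / 600) * T * (g * h) = 0.9979 * (199 / 600) * g * h * T := by ring
        _ ≤ 2 * 3.1416 * (c * g / 19) * (2 * H * h / 0.9999) := m1.trans (m2.trans m3)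
        _ = _ := by ring
    have m5 := le_of_mul_le_mul_right m4 (mul_pos hg0 hh)
    have hHc : 0 ≤ 2 * (H : ℝ) * c := by positivity
    nlinarith

/-- the form used by the cells -/
theorem count7 {w0 A ε h w E : ℝ} {s : ℂ} {H m : ℕ} {a : ℕ → ℂ}
    (hreal : ∀ k, (starRingEnd ℂ) (a k) = a k) (h0 : 0 < w0) (h1 : 1000 * w0 ≤ s.re)
    (h2 : s.re ≤ 1 / 1000) (hy : |s.im| ≤ 4.51 * (s.re - w0))
    (hw : w = max (2 * (s.re - w0)) (2.75 * |s.im|))
    (hh : 0 < h) (hh2 : 10 ^ 6 * h ≤ w) (hA1 : 1 ≤ A)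
    (hA : ∀ x : ℝ, ‖expSum m a ((w0 : ℂ) - x * I)‖ ≤ A) (hε : 0 < ε) (hs : ε ≤ ‖expSum m a s‖)
    (hE : Real.log A - Real.log ε ≤ E * min 1 (2 - |s.im| / (2.303 * (s.re - w0))))
    (hH1 : (2 * (H : ℝ) + 8) * h ≤ w) (hH2 : 0.9999 * w ≤ 2 * (H : ℝ) * h) :
    ∃ ξ φ : ℕ → ℝ, (∀ j, 0 ≤ φ j) ∧
      (∀ j ≤ 2 * H, j * h ≤ ξ j ∧ ξ j ≤ (j + 1) * h ∧
        Real.exp (-(φ j)) ≤ ‖expSum m a ((w0 : ℂ) - ξ j * I)‖) ∧
      6 * (∑ j ∈ Finset.range (H + 1), φ j) + 4 * (∑ j ∈ Finset.range (H + (H + 7) / 2), φ j) +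
        2 * (∑ j ∈ Finset.range (2 * H + 1), φ j) ≤ 2 * H * (19.07 * E) := by
  have ha0 : 0 < s.re - w0 := by linarith
  have hq : |s.im| / (2.303 * (s.re - w0)) ≤ 4.51 / 2.303 := by
    rw [div_le_div_iff₀ (by positivity) (by norm_num)]
    nlinarith
  have hlt : (0 : ℝ) < 2 - |s.im| / (2.303 * (s.re - w0)) := by
    have : (4.51 : ℝ) / 2.303 < 2 := by norm_num
    linarith
  have hg0 : 0 < min 1 (2 - |s.im| / (2.303 * (s.re - w0))) := lt_min one_pos hlt
  obtain ⟨φ, x, hφ, hx, hsum⟩ := count7g (g := min 1 (2 - |s.im| / (2.303 * (s.re - w0))))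
    (c := 19 * E) (H := H) hreal h0 h1 h2 hy
    (fun h3 => by rw [hw, max_eq_left h3]) (fun h3 => by rw [hw, max_eq_right h3.le]) hh
    (by linarith) hA1 hA hε hs hg0 (min_le_left _ _) (min_le_right _ _) (by linarith)
    (by linarith) hH2
  refine ⟨x, fun j => if j < 2 * H + 1 then φ j else 0, ?_, ?_, ?_⟩
  · intro j
    dsimp only
    split_ifs with hj
    · exact hφ j hj
    · exact le_rfl
  · intro j hj
    have hj' : j < 2 * H + 1 := by omega
    dsimp only
    rw [if_pos hj']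
    exact hx j hj'
  · have hHbig : 0.9999 * (10 ^ 6 * h) ≤ 2 * (H : ℝ) * h := by linarith
    have hH3 : (999900 : ℝ) * h ≤ 2 * H * h := by linarith
    have hH4 := le_of_mul_le_mul_right hH3 hh
    have hH5 : 999900 ≤ 2 * H := by exact_mod_cast hH4
    have hred : ∀ n ≤ 2 * H + 1, (∑ j ∈ Finset.range n, if j < 2 * H + 1 then φ j else 0) =
        ∑ j ∈ Finset.range n, φ j := by
      intro n hn
      refine Finset.sum_congr rfl fun j hj => ?_
      have := Finset.mem_range.1 hj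
      rw [if_pos (by omega)]
    rw [hred _ (by omega), hred _ (by omega), hred _ le_rfl]
    have hsum0 : 0 ≤ 6 * (∑ j ∈ Finset.range (H + 1), φ j) +
        4 * (∑ j ∈ Finset.range (H + (H + 7) / 2), φ j) +
        2 * (∑ j ∈ Finset.range (2 * H + 1), φ j) := by
      have b1 : 0 ≤ ∑ j ∈ Finset.range (H + 1), φ j :=
        Finset.sum_nonneg fun j hj => hφ j (by have := Finset.mem_range.1 hj; omega)
      have b2 : 0 ≤ ∑ j ∈ Finset.range (H + (H + 7) / 2), φ j :=
        Finset.sum_nonneg fun j hj => hφ j (by have := Finset.mem_range.1 hj; omega)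
      have b3 : 0 ≤ ∑ j ∈ Finset.range (2 * H + 1), φ j :=
        Finset.sum_nonneg fun j hj => hφ j (Finset.mem_range.1 hj)
      positivity
    have hHpos : (0 : ℝ) < 2 * H := by linarith
    have hE0 : 0 ≤ 2 * (H : ℝ) * E := by
      have : 0 ≤ 2 * (H : ℝ) * (19 * E) := hsum0.trans hsum
      linarith
    calc _ ≤ 2 * (H : ℝ) * (19 * E) := hsum
      _ ≤ 2 * (H : ℝ) * (19.07 * E) := by linarith

end Vale.Agent.P321.R3.H613.B
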