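import Mathlib

/-! # A numerical lower bound for the total mass of the decreasing minorant of the kernel -/

namespace Vale.Agent.P321.R3.H613.GN

open Real Set

/-- the total mass -/
noncomputable def G (r : ℝ) : ℝ :=
  2 * Real.sqrt (3 * r ^ 2 - 1) / (1 + r ^ 2) + Real.pi -
    Real.arctan (Real.sqrt (3 * r ^ 2 - 1) - r) - Real.arctan (Real.sqrt (3 * r ^ 2 - 1) + r)

theorem hasDeriv_G {r : ℝ} (hr : 0 < r) (h : 1 < 3 * r ^ 2) :
    HasDerivAt G (-(Real.sqrt (3 * r ^ 2 - 1) ^ 3 / (r * (1 + r ^ 2) ^ 2))) r := by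
  set x := Real.sqrt (3 * r ^ 2 - 1) with hx
  have hpos : 0 < 3 * r ^ 2 - 1 := by linarith
  have hx0 : 0 < x := Real.sqrt_pos.2 hpos
  have hx2 : x ^ 2 = 3 * r ^ 2 - 1 := Real.sq_sqrt hpos.le
  have d0 : HasDerivAt (fun r : ℝ => 3 * r ^ 2 - 1) (6 * r) r := by
    have := ((hasDerivAt_pow 2 r).const_mul 3).sub_const 1
    exact this.congr_deriv (by norm_num; ring)
  have dx : HasDerivAt (fun r : ℝ => Real.sqrt (3 * r ^ 2 - 1)) (3 * r / x) r := by
    have := d0.sqrt hpos.ne'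
    exact this.congr_deriv (by rw [← hx]; field_simp; ring)
  have did := hasDerivAt_id r
  have dq : HasDerivAt (fun r : ℝ => 1 + r ^ 2) (2 * r) r := by
    have := (hasDerivAt_pow 2 r).const_add 1
    exact this.congr_deriv (by norm_num)
  have hq : (1 : ℝ) + r ^ 2 ≠ 0 := by positivity
  have d1 := (dx.const_mul 2).div dq hq
  have d2 := (dx.sub did).arctan
  have d3 := (dx.add did).arctan
  have hG := ((d1.add_const Real.pi).sub d2).sub d3
  refine hG.congr_deriv ?_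
  simp only [Pi.sub_apply, Pi.add_apply, id, ← hx]
  have e1 : 1 + (x - r) ^ 2 = 2 * r * (2 * r - x) := by
    have : (x - r) ^ 2 = x ^ 2 - 2 * x * r + r ^ 2 := by ring
    rw [this, hx2]; ring
  have e2 : 1 + (x + r) ^ 2 = 2 * r * (2 * r + x) := by
    have : (x + r) ^ 2 = x ^ 2 + 2 * x * r + r ^ 2 := by ring
    rw [this, hx2]; ring
  have e3 : (2 * r - x) * (2 * r + x) = 1 + r ^ 2 := by
    have : (2 * r - x) * (2 * r + x) = 4 * r ^ 2 - x ^ 2 := by ring
    rw [this, hx2]; ring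
  have hm : 2 * r - x ≠ 0 := by
    intro h0; rw [h0, zero_mul] at e3; exact hq e3.symm
  have hp : 2 * r + x ≠ 0 := by positivity
  rw [e1, e2]
  have k1 : 1 / (2 * r * (2 * r - x)) = (2 * r + x) / (2 * r * (1 + r ^ 2)) := by
    rw [← e3]; field_simp
  have k2 : 1 / (2 * r * (2 * r + x)) = (2 * r - x) / (2 * r * (1 + r ^ 2)) := by
    rw [← e3]; field_simp
  rw [k1, k2]
  have hr0 : r ≠ 0 := hr.ne'
  have hx3 : x ^ 3 = x * (3 * r ^ 2 - 1) := by rw [← hx2]; ring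
  rw [hx3]
  field_simp
  ring_nf
  try simp only [hx2]
  try ring

theorem continuous_G : Continuous G := by
  unfold G
  have h : ∀ r : ℝ, (1 : ℝ) + r ^ 2 ≠ 0 := fun r => by positivity
  fun_prop (disch := exact h _)

/-- minus the derivative -/
noncomputable def D (t : ℝ) : ℝ := Real.sqrt (3 * t ^ 2 - 1) ^ 3 / (t * (1 + t ^ 2) ^ 2)

theorem D_nonneg {t : ℝ} (ht : 0 < t) : 0 ≤ D t := by unfold D; positivity

theorem D_sq {t : ℝ} (ht : 0 < t) (h : 1 < 3 * t ^ 2) :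
    D t ^ 2 = (3 * t ^ 2 - 1) ^ 3 / (t ^ 2 * (1 + t ^ 2) ^ 4) := by
  unfold D
  rw [div_pow]
  congr 1
  · have h2 : Real.sqrt (3 * t ^ 2 - 1) ^ 2 = 3 * t ^ 2 - 1 := Real.sq_sqrt (by linarith)
    calc (Real.sqrt (3 * t ^ 2 - 1) ^ 3) ^ 2 = (Real.sqrt (3 * t ^ 2 - 1) ^ 2) ^ 3 := by ring
      _ = _ := by rw [h2]
  · ring

theorem le_D {t c : ℝ} (hc : 0 ≤ c) (ht : 0 < t) (h : 1 < 3 * t ^ 2)
    (hp : c ^ 2 * (t ^ 2 * (1 + t ^ 2) ^ 4) ≤ (3 * t ^ 2 - 1) ^ 3) : c ≤ D t := by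
  rw [← sq_le_sq₀ hc (D_nonneg ht), D_sq ht h, le_div_iff₀ (by positivity)]
  exact hp

theorem D_le {t c : ℝ} (hc : 0 ≤ c) (ht : 0 < t) (h : 1 < 3 * t ^ 2)
    (hp : (3 * t ^ 2 - 1) ^ 3 ≤ c ^ 2 * (t ^ 2 * (1 + t ^ 2) ^ 4)) : D t ≤ c := by
  rw [← sq_le_sq₀ (D_nonneg ht) hc, D_sq ht h, div_le_iff₀ (by positivity)]
  exact hp

theorem anti_G {a b c : ℝ} (ha : 0 < a) (h : 1 ≤ 3 * a ^ 2) (hab : a ≤ b)
    (hc : ∀ t, a < t → t < b → c ≤ D t) : G b + c * b ≤ G a + c * a := by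
  have hd : ∀ t ∈ interior (Icc a b), HasDerivAt (fun t => G t + c * t) (-D t + c) t := by
    intro t ht
    rw [interior_Icc] at ht
    have h1 : 1 < 3 * t ^ 2 := by nlinarith [ht.1]
    have := (hasDeriv_G (ha.trans ht.1) h1).add ((hasDerivAt_id t).const_mul c)
    exact this.congr_deriv (by unfold D; ring)
  have := antitoneOn_of_deriv_nonpos (f := fun t => G t + c * t) (convex_Icc a b)
    ((continuous_G.add (continuous_const.mul continuous_id)).continuousOn (s := Icc a b))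
    (fun t ht => (hd t ht).differentiableAt.differentiableWithinAt)
    (fun t ht => by
      rw [(hd t ht).deriv]
      rw [interior_Icc] at ht
      linarith [hc t ht.1 ht.2])
  exact this (left_mem_Icc.2 hab) (right_mem_Icc.2 hab) hab

theorem mono_G {a b c : ℝ} (ha : 0 < a) (h : 1 ≤ 3 * a ^ 2) (hab : a ≤ b)
    (hc : ∀ t, a < t → t < b → D t ≤ c) : G a + c * a ≤ G b + c * b := by
  have hd : ∀ t ∈ interior (Icc a b), HasDerivAt (fun t => G t + c * t) (-D t + c) t := by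
    intro t ht
    rw [interior_Icc] at ht
    have h1 : 1 < 3 * t ^ 2 := by nlinarith [ht.1]
    have := (hasDeriv_G (ha.trans ht.1) h1).add ((hasDerivAt_id t).const_mul c)
    exact this.congr_deriv (by unfold D; ring)
  have := monotoneOn_of_deriv_nonneg (f := fun t => G t + c * t) (convex_Icc a b)
    ((continuous_G.add (continuous_const.mul continuous_id)).continuousOn (s := Icc a b))
    (fun t ht => (hd t ht).differentiableAt.differentiableWithinAt)
    (fun t ht => by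
      rw [(hd t ht).deriv]
      rw [interior_Icc] at ht
      linarith [hc t ht.1 ht.2])
  exact this (left_mem_Icc.2 hab) (right_mem_Icc.2 hab) hab

theorem G_one : 2.85 ≤ G 1 := by
  unfold G
  have e : (3 : ℝ) * 1 ^ 2 - 1 = 2 := by norm_num
  rw [e]
  have h2 : Real.sqrt 2 ^ 2 = 2 := Real.sq_sqrt (by norm_num)
  have hs : 1.4 ≤ Real.sqrt 2 := Real.le_sqrt_of_sq_le (by norm_num)
  have hinv : Real.sqrt 2 - 1 = (Real.sqrt 2 + 1)⁻¹ := by
    apply eq_inv_of_mul_eq_one_left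
    nlinarith
  rw [hinv, Real.arctan_inv_of_pos (by positivity)]
  have hpi := Real.pi_gt_d2
  norm_num
  linarith

theorem G_one' : 2.98 ≤ G 1 := by
  unfold G
  have e : (3 : ℝ) * 1 ^ 2 - 1 = 2 := by norm_num
  rw [e]
  have h2 : Real.sqrt 2 ^ 2 = 2 := Real.sq_sqrt (by norm_num)
  have hs : 1.414 ≤ Real.sqrt 2 := Real.le_sqrt_of_sq_le (by norm_num)
  have hinv : Real.sqrt 2 - 1 = (Real.sqrt 2 + 1)⁻¹ := by
    apply eq_inv_of_mul_eq_one_left
    nlinarith
  rw [hinv, Real.arctan_inv_of_pos (by positivity)]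
  have hpi := Real.pi_gt_d2
  norm_num
  linarith

/-- `G (41 / 20)`, true value `2.12607..` -/
theorem G_205 : 2.12595 ≤ G 2.05 := by
  unfold G
  have e : (3 : ℝ) * 2.05 ^ 2 - 1 = 11.6075 := by norm_num
  rw [e]
  set y := Real.sqrt 11.6075 with hy
  have h2 : y ^ 2 = 11.6075 := Real.sq_sqrt (by norm_num)
  have hs : 3.40697 ≤ y := Real.le_sqrt_of_sq_le (by norm_num)
  have hxy : (y - 2.05) * (y + 2.05) = 7.405 := by nlinarith
  have hadd := Real.arctan_add_eq_add_pi (x := y - 2.05) (y := y + 2.05) (by rw [hxy]; norm_num)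
    (by linarith)
  have e2 : (y - 2.05 + (y + 2.05)) / (1 - (y - 2.05) * (y + 2.05)) = -(y / 3.2025) := by
    rw [hxy]; ring
  rw [e2, Real.arctan_neg] at hadd
  have h3 := Real.arctan_add (x := 1) (y := 0.03093) (by norm_num)
  have hm : Real.arctan ((1 + 0.03093) / (1 - 1 * 0.03093)) ≤ Real.arctan (y / 3.2025) := by
    apply Real.arctan_mono
    rw [div_le_div_iff₀ (by norm_num) (by norm_num)]
    nlinarith
  rw [Real.arctan_one] at h3
  have h4 : (0.0309 : ℝ) ≤ Real.arctan 0.03093 := by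
    have h5 := Real.sin_le (x := Real.arctan 0.03093) (by
      rw [Real.arctan_nonneg]; norm_num)
    rw [Real.sin_arctan] at h5
    refine le_trans ?_ h5
    rw [le_div_iff₀ (by positivity)]
    have : Real.sqrt (1 + 0.03093 ^ 2) ≤ 1.0005 := Real.sqrt_le_iff.2 ⟨by norm_num, by norm_num⟩
    linarith
  have hpi := Real.pi_gt_d6
  have e5 : (2 : ℝ) * y / (1 + 2.05 ^ 2) = 2 / 5.2025 * y := by
    norm_num; ring
  rw [e5]
  have h6 : 1.30974 ≤ 2 / 5.2025 * y := by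
    have : (2 / 5.2025 : ℝ) * 3.40697 ≤ 2 / 5.2025 * y := by gcongr
    refine le_trans ?_ this
    norm_num
  linarith

theorem poly0 {v : ℝ} (h1 : 1 / 3 ≤ v) : (3 * v - 1) ^ 3 ≤ 1 ^ 2 * (v * (1 + v) ^ 4) := by
  obtain ⟨s, rfl⟩ : ∃ s, v = 1 / 3 + s := ⟨v - 1 / 3, by ring⟩
  have hs : 0 ≤ s := by linarith
  nlinarith [pow_nonneg hs 2, pow_nonneg hs 3, pow_nonneg hs 4, pow_nonneg hs 5,
    mul_nonneg hs (sq_nonneg (s - 1)), mul_nonneg (pow_nonneg hs 3) (sq_nonneg (s - 1)),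
    mul_nonneg hs (sq_nonneg (s - 2)), sq_nonneg (s - 1), sq_nonneg (s ^ 2 - s)]

theorem polya {v : ℝ} (h1 : 1.0816 ≤ v) (h2 : v ≤ 4.2025) :
    0.71 ^ 2 * (v * (1 + v) ^ 4) ≤ (3 * v - 1) ^ 3 := by
  obtain ⟨s, rfl⟩ : ∃ s, v = 1.0816 + s := ⟨v - 1.0816, by ring⟩
  have hs : 0 ≤ s := by linarith
  have hs3 : 0 ≤ 3.1209 - s := by linarith
  nlinarith [mul_nonneg (pow_nonneg hs 2) hs3, mul_nonneg (pow_nonneg hs 3) hs3,
    mul_nonneg (pow_nonneg hs 4) hs3, pow_nonneg hs 2, pow_nonneg hs 3, mul_nonneg hs hs3]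

theorem polyb {v : ℝ} (h1 : 4.2025 ≤ v) : (3 * v - 1) ^ 3 ≤ 0.713 ^ 2 * (v * (1 + v) ^ 4) := by
  obtain ⟨s, rfl⟩ : ∃ s, v = 4.2025 + s := ⟨v - 4.2025, by ring⟩
  have hs : 0 ≤ s := by linarith
  nlinarith [pow_nonneg hs 2, pow_nonneg hs 3, pow_nonneg hs 4, pow_nonneg hs 5]

theorem polyc {v : ℝ} (h1 : 4.2436 ≤ v) : (3 * v - 1) ^ 3 ≤ 0.71 ^ 2 * (v * (1 + v) ^ 4) := by
  obtain ⟨s, rfl⟩ : ∃ s, v = 4.2436 + s := ⟨v - 4.2436, by ring⟩
  have hs : 0 ≤ s := by linarith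
  nlinarith [pow_nonneg hs 2, pow_nonneg hs 3, pow_nonneg hs 4, pow_nonneg hs 5]

/-- for `r >= 1.04` -/
theorem low_lin {r : ℝ} (h1 : 1.04 ≤ r) : 2.84 * (1.26 - r / 4) + 0.003 ≤ G r := by
  have g := G_205
  rcases le_or_gt r 2.05 with h2 | h2
  · have := anti_G (a := r) (b := 2.05) (c := 0.71) (by linarith) (by nlinarith) h2
      (fun t h3 h4 => le_D (by norm_num) (by linarith) (by nlinarith)
        (polya (by nlinarith) (by nlinarith)))
    linarith
  · have h206 : ∀ r : ℝ, 2.05 ≤ r → r ≤ 2.06 → 2.84 * (1.26 - r / 4) + 0.003 ≤ G r := by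
      intro r h3 h4
      have := mono_G (a := 2.05) (b := r) (c := 0.713) (by norm_num) (by norm_num) h3
        (fun t h5 _ => D_le (by norm_num) (by linarith) (by nlinarith) (polyb (by nlinarith)))
      linarith
    rcases le_or_gt r 2.06 with h3 | h3
    · exact h206 r h2.le h3
    · have := mono_G (a := 2.06) (b := r) (c := 0.71) (by norm_num) (by norm_num) h3.le
        (fun t h5 _ => D_le (by norm_num) (by linarith) (by nlinarith) (polyc (by nlinarith)))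
      have g2 := h206 2.06 (by norm_num) le_rfl
      linarith

/-- for `r <= 1.04` -/
theorem low_const {r : ℝ} (h0 : 0 < r) (h1 : 1 ≤ 3 * r ^ 2) (h : r ≤ 1.04) : 2.9 ≤ G r := by
  have g1 := G_one'
  rcases le_or_gt r 1 with h2 | h2
  · have := anti_G (c := 0) h0 h1 h2 (fun t ht _ => D_nonneg (h0.trans ht))
    linarith
  · have := mono_G (a := 1) (b := r) (c := 1) (by norm_num) (by norm_num) h2.le
      (fun t h5 _ => D_le (by norm_num) (by linarith) (by nlinarith) (poly0 (by nlinarith)))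
    linarith

end Vale.Agent.P321.R3.H613.GN

namespace Vale.Agent.P321.R3.H613

/-- the numerical lemma, intercept `1.26` -/
theorem GNum126 {r : ℝ} (h0 : 0 < r) (h1 : 1 ≤ 3 * r ^ 2) :
    2.84 * min 1 (1.26 - r / 4) + 0.003 ≤ 2 * Real.sqrt (3 * r ^ 2 - 1) / (1 + r ^ 2) + Real.pi -
      Real.arctan (Real.sqrt (3 * r ^ 2 - 1) - r) -
      Real.arctan (Real.sqrt (3 * r ^ 2 - 1) + r) := by
  change _ ≤ GN.G r
  rcases le_or_gt r 1.04 with h | h
  · have := GN.low_const h0 h1 h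
    have : 2.84 * min 1 (1.26 - r / 4) ≤ 2.84 * 1 := by
      gcongr; exact min_le_left _ _
    linarith
  · have := GN.low_lin h.le
    have : 2.84 * min 1 (1.26 - r / 4) ≤ 2.84 * (1.26 - r / 4) := by
      gcongr; exact min_le_right _ _
    linarith

/-- intercept `1.25` -/
theorem GNum125 {r : ℝ} (h0 : 0 < r) (h1 : 1 ≤ 3 * r ^ 2) :
    2.84 * min 1 (1.25 - r / 4) + 0.02 ≤ 2 * Real.sqrt (3 * r ^ 2 - 1) / (1 + r ^ 2) + Real.pi -
      Real.arctan (Real.sqrt (3 * r ^ 2 - 1) - r) -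
      Real.arctan (Real.sqrt (3 * r ^ 2 - 1) + r) := by
  change _ ≤ GN.G r
  rcases le_or_gt r 1.04 with h | h
  · have := GN.low_const h0 h1 h
    have : 2.84 * min 1 (1.25 - r / 4) ≤ 2.84 * 1 := by
      gcongr; exact min_le_left _ _
    linarith
  · have := GN.low_lin h.le
    have : 2.84 * min 1 (1.25 - r / 4) ≤ 2.84 * (1.25 - r / 4) := by
      gcongr; exact min_le_right _ _
    linarith

end Vale.Agent.P321.R3.H613
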